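import Vale.Agent.P354P.Defs
import Vale.Agent.P354J.Defs
import Vale.Agent.P354I.Core

/-!
Block B6: exact input and output.
-/

open scoped ContDiff
open Set Filter Topology

noncomputable section

namespace Vale.Agent.P354P

open Vale.Agent.P354n (R4)
open Vale.Agent.P354C
open Vale.Agent.P354E (S2 st)
open Vale.Agent.P354H (X3)
open Vale.Agent.P354I (X Dat IsDev IsCh r2)
open Vale.Agent.P354J (pb Ud PDy)

/-- the part `τ > -δ`, `|θ|^2 < R` of the chart `(τ, x, θ)` -/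
def Dt (δ R : ℝ) : Set R4 := {p | -δ < p.1 ∧ rr p < R}

/-- one solution of all structure equations in the two charts -/
structure Glob (d : Dat) (δ : ℝ) (U : Bool → R4 → Ix → ℝ) : Prop where
  pos : 0 < δ
  sm : ∀ σ, SmU (U σ) (Dt δ 4)
  full : ∀ σ, ∀ p ∈ Dt δ 4, 0 < U σ p .O ∧ detP (U σ p) ≠ 0 ∧ Full (U σ p) (dfr (U σ) p)
  ind : ∀ σ (z : X3), r2 z < 4 → P354J.Ind (U σ (0, z)) (pb σ d.h z) (pb σ d.K z)
  compat : ∀ σ, ∀ p ∈ Dt δ 4, 1 / 4 < rr p → ∀ a b,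
    met (U σ) p a b = met (U (!σ)) (flip p) (fderiv ℝ flip p a) (fderiv ℝ flip p b)

/-- the coefficients of the double null form at a point with the values `u` -/
def cfu (u : Ix → ℝ) : ℕ → ℝ
  | 0 => u .O ^ 2 * (u .P22 ^ 2 + u .P12 ^ 2) / detP u ^ 2
  | 1 => -2 * u .O ^ 2 * (u .P22 * u .P21 + u .P11 * u .P12) / detP u ^ 2
  | 2 => u .O ^ 2 * (u .P21 ^ 2 + u .P11 ^ 2) / detP u ^ 2
  | 3 => u .O ^ 2
  | 4 => u .b1 / 2
  | 5 => u .b2 / 2
  | _ => 0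

/-- the coefficients in the coordinates `(u, v, θ)` -/
def coef (U : Bool → R4 → Ix → ℝ) (σ : Bool) (i : ℕ) (y : R4) : ℝ := cfu (U σ (uv.symm y)) i

open Classical in
/-- the direction of a vector -/
def dir (y : X) : S2 :=
  if h : y = 0 then st true 0 else ⟨‖y‖⁻¹ • y, by simp [norm_smul, h]⟩

/-- the embedding of the cylinder -/
def jX (δ : ℝ) (y : X) : Pt := jj δ (Real.log ‖y‖, dir y)

/-- **COMPAT**: the solutions in the two charts fit together -/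
def COMPAT : Prop :=
  ∀ (k : ℝ) (a A : ℝ → ℝ) (A0 cb : ℝ), 0 < k → P354A.Wt k a A A0 → ∃ μ > 0, ∀ ε ∈ Icc 0 μ,
    ∀ η ∈ Icc 0 μ, ∀ δ ∈ Ioc 0 μ, ∀ (d : Dat) (U : Bool → R4 → Ix → ℝ), PDy d →
      (∀ σ, IsCh k a ε η δ cb (Ud d σ) (U σ)) → Glob d δ U

/-- **DEV**: the development -/
def DEV : Prop :=
  ∀ (d : Dat) (δ : ℝ) (U : Bool → R4 → Ix → ℝ), Glob d δ U →
    IsDN δ (coef U) ∧ IsDev d (sp δ (coef U)) (jX δ)

end Vale.Agent.P354P
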