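import Vale.Agent.P354P.Sp
import Vale.Agent.P354F.Cauchy

/-!
Limits of future curves; the Cauchy hypersurface.
-/

open scoped ContDiff
open Set Filter Topology

noncomputable section

namespace Vale.Agent.P354P

open Vale.Agent.P354n (R4 cu cv c1 c2 h1 h2 form IsFutureCurve)
open Vale.Agent.P354E (S2 st sti src stv st_sti)
open Vale.Agent.P354F (conv_of_dom dst dst_inner fderiv_stv stv_diff)

variable {δ m t t0 L A ε : ℝ} {C : Bool → ℕ → R4 → ℝ} {σ : Bool} {I : Set ℝ} {a b : ℝ → Pt}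
  {f : ℝ → ℝ}

/-- the velocity of a future curve in a stereographic chart -/
theorem vel_of_curve (h : IsDN δ C) (H : IsFutureCurve (sp δ C) 0 I a) (ht : I ∈ 𝓝 t)
    (h1 : In δ σ (a t)) : ∃ w, HasDerivAt (fun s => bs δ σ (a s)) w t ∧
      form (C σ) (bs δ σ (a t)) w < 0 ∧ 0 < cu w ∧ 0 < cv w := by
  obtain ⟨k1, k2, k3⟩ := fut_of_curve h H (mem_of_mem_nhds ht) h1
  rw [neg_zero] at k2
  exact ⟨_, (k1.differentiableWithinAt one_ne_zero).hasDerivWithinAt.hasDerivAt ht, k2,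
    h.pos_uv h1.mem k2 k3⟩

lemma der_uu {w : R4} (h : HasDerivAt (fun s => bs δ σ (a s)) w t) :
    HasDerivAt (fun s => uu δ (a s)) (cu w) t := h.fst

lemma der_vv {w : R4} (h : HasDerivAt (fun s => bs δ σ (a s)) w t) :
    HasDerivAt (fun s => vv δ (a s)) (cv w) t := h.snd.fst

lemma mono_of_der {J : Set ℝ} (hJ : Convex ℝ J) (H : ∀ t ∈ J, ∃ f' > 0, HasDerivAt f f' t) :
    StrictMonoOn f J :=
  strictMonoOn_of_deriv_pos hJ (fun t ht => let ⟨_, _, k⟩ := H t ht; k.continuousAt.continuousWithinAt)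
    fun t ht => let ⟨_, k, k'⟩ := H t (interior_subset ht); k'.deriv ▸ k

/-- `u` and `v` increase along future curves -/
theorem uv_mono (h : IsDN δ C) (H : IsFutureCurve (sp δ C) 0 I a) (hI : Ioo t0 t ⊆ I) :
    StrictMonoOn (fun s => uu δ (a s)) (Ioo t0 t) ∧ StrictMonoOn (fun s => vv δ (a s)) (Ioo t0 t) := by
  constructor <;> refine mono_of_der (convex_Ioo _ _) fun s hs => ?_ <;>
    obtain ⟨σ, k, -⟩ := exists_in δ (a s) <;>
    obtain ⟨w, k1, -, k2, k3⟩ := vel_of_curve h H (mem_of_superset (Ioo_mem_nhds hs.1 hs.2) hI) k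
  exacts [⟨_, k2, der_uu k1⟩, ⟨_, k3, der_vv k1⟩]

lemma norm_dst (σ : Bool) (y w : ℝ × ℝ) : ‖dst σ y w‖ ≤ 3 * ‖w‖ := by
  refine abs_le_of_sq_le_sq' ?_ (by positivity) |>.2
  rw [← real_inner_self_eq_norm_sq, dst_inner]
  have k1 : w.1 * w.1 ≤ ‖w‖ ^ 2 := by
    rw [← sq, ← sq_abs]; exact pow_le_pow_left₀ (abs_nonneg _) (norm_fst_le w) 2
  have k2 : w.2 * w.2 ≤ ‖w‖ ^ 2 := by
    rw [← sq, ← sq_abs]; exact pow_le_pow_left₀ (abs_nonneg _) (norm_snd_le w) 2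
  have k3 : 4 / (1 + y.1 ^ 2 + y.2 ^ 2) ^ 2 ≤ 4 :=
    div_le_self (by norm_num) (one_le_pow₀ (by nlinarith [sq_nonneg y.1, sq_nonneg y.2]))
  have k4 := mul_le_mul_of_nonneg_right k3 (add_nonneg (mul_self_nonneg w.1) (mul_self_nonneg w.2))
  nlinarith [sq_nonneg ‖w‖]

/-- the angle converges if its speed is bounded by the derivative of a convergent function -/
theorem conv_S2 (ht0 : t0 < 1) (H : ∀ t ∈ Ioo t0 1, ContinuousAt b t ∧ ∃ σ w f',
      (b t).2.2 ∈ src σ ∧ HasDerivAt (fun s => bs δ σ (b s)) w t ∧ HasDerivAt f f' t ∧ ‖w.2.2‖ ≤ f')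
    (hL : Tendsto f (𝓝[<] 1) (𝓝 L)) : ∃ o : S2, Tendsto (fun t => (b t).2.2) (𝓝[<] 1) (𝓝 o) := by
  obtain ⟨z, hz⟩ := conv_of_dom (W := fun t => (b t).2.2.1) (W' := deriv fun t => (b t).2.2.1)
    (f := fun t => 3 * f t) (f' := fun t => 3 * deriv f t) ht0 (fun t ht => by
      obtain ⟨k0, σ, w, f', k1, k2, k3, k4⟩ := H t ht
      have k5 : HasDerivAt (fun t => (b t).2.2.1) _ t :=
        ((stv_diff σ _).comp_hasDerivAt t k2.snd.snd).congr_of_eventuallyEq (by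
          filter_upwards [k0.eventually ((base 0 σ).open_source.mem_nhds k1)] with s hs
          exact (congrArg Subtype.val (st_sti σ hs)).symm)
      rw [k5.deriv, k3.deriv, fderiv_stv]
      exact ⟨fderiv_stv σ _ _ ▸ k5, k3.const_mul 3, (norm_dst _ _ _).trans (by linarith)⟩)
    (hL.const_mul 3)
  exact ⟨⟨z, Metric.isClosed_sphere.mem_of_tendsto hz (.of_forall fun t => (b t).2.2.2)⟩,
    tendsto_subtype_rng.2 hz⟩

/-- convergence from the convergence of `u`, `v` and of the angle -/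
lemma lim_pt {l : Filter ℝ} {u v : ℝ} {o : S2} (hu : Tendsto (fun s => uu δ (b s)) l (𝓝 u))
    (hv : Tendsto (fun s => vv δ (b s)) l (𝓝 v)) (ho : Tendsto (fun s => (b s).2.2) l (𝓝 o))
    (h : -δ < (u + v) / 2) : ∃ x, Tendsto b l (𝓝 x) := by
  refine ⟨_, Tendsto.prodMk_nhds (Tendsto.congr (fun s => ?_)
    ((((hu.add hv).div_const 2).add_const δ).log (by linarith)))
    (Tendsto.prodMk_nhds (Tendsto.congr (fun s => ?_) ((hv.sub hu).div_const 2)) ho)⟩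
  · rw [show (uu δ (b s) + vv δ (b s)) / 2 + δ = Real.exp (b s).1 by rw [uu, vv]; ring, Real.log_exp]
  · rw [uu, vv]; ring

lemma form_smul (D : ℕ → R4 → ℝ) (y w : R4) (k : ℝ) : form D y (k • w) = k ^ 2 * form D y w := by
  simp only [form, h1, h2, cu, cv, c1, c2, Prod.smul_fst, Prod.smul_snd, smul_eq_mul]; ring

/-- on compact sets causal vectors are bounded by their null components -/
lemma causal_bound (h : IsDN δ C) (σ : Bool) {S : Set R4} (hS : IsCompact S) (hD : S ⊆ Dm δ) :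
    ∃ K > 0, ∀ y ∈ S, ∀ w, form (C σ) y w ≤ 0 → 0 ≤ cu w + cv w → ‖w‖ ≤ K * (cu w + cv w) := by
  have hc : ContinuousOn (fun q : R4 × R4 => form (C σ) q.1 q.2) (S ×ˢ Metric.sphere 0 1) := by
    have k : ∀ i, ContinuousOn (fun q : R4 × R4 => C σ i q.1) (S ×ˢ Metric.sphere 0 1) := fun i =>
      (h.smooth σ i).continuousOn.comp continuousOn_fst fun _ k => hD k.1
    have q1 : ContinuousOn (fun q : R4 × R4 => h1 (C σ) q.1 q.2) (S ×ˢ Metric.sphere 0 1) :=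
      (continuousOn_snd.snd.snd.fst.sub ((k 4).mul continuousOn_snd.snd.fst)).sub
        ((k 6).mul continuousOn_snd.fst)
    have q2 : ContinuousOn (fun q : R4 × R4 => h2 (C σ) q.1 q.2) (S ×ˢ Metric.sphere 0 1) :=
      (continuousOn_snd.snd.snd.snd.sub ((k 5).mul continuousOn_snd.snd.fst)).sub
        ((k 7).mul continuousOn_snd.fst)
    exact ((((k 0).mul (q1.pow 2)).add (((k 1).mul q1).mul q2)).add ((k 2).mul (q2.pow 2))).sub
      (((k 3).mul continuousOn_snd.fst).mul continuousOn_snd.snd.fst)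
  have hK := hS.prod (isCompact_sphere (0 : R4) 1)
  have hs : Continuous fun q : R4 × R4 => cu q.2 + cv q.2 := by unfold cu cv; fun_prop
  have hT := (hK.of_isClosed_subset (hc.preimage_isClosed_of_isClosed hK.isClosed
    (isClosed_Iic (a := (0 : ℝ)))) inter_subset_left).inter_right ((isClosed_Ici (a := (0 : ℝ))).preimage hs)
  obtain ⟨c, c0, hc'⟩ := hT.exists_forall_le' hs.continuousOn (a := 0) fun q hq => by
    obtain ⟨⟨⟨k1, k2⟩, k3⟩, k4⟩ := hq
    refine lt_of_le_of_ne k4 fun e => ?_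
    obtain ⟨k5, k6⟩ := ang_nonneg (s := h1 (C σ) q.1 q.2) (r := h2 (C σ) q.1 q.2)
      (h.g0 σ _ (hD k1)) (h.det σ _ (hD k1))
    have k7 := h.om σ _ (hD k1)
    have e1 : cv q.2 = -cu q.2 := by linarith
    replace k3 : form (C σ) q.1 q.2 ≤ 0 := k3
    rw [form, e1] at k3
    have e2 : cu q.2 = 0 := by
      by_contra k
      nlinarith [mul_pos k7 (mul_self_pos.2 k)]
    rw [e2, neg_zero] at e1
    obtain ⟨e3, e4⟩ := k6 (by rw [e2] at k3; linarith)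
    simp only [h1, h2, e1, e2, mul_zero, sub_zero] at e3 e4
    have : q.2 = 0 := Prod.ext e2 (Prod.ext e1 (Prod.ext e3 e4))
    simp [this] at k2
  refine ⟨c⁻¹, inv_pos.2 c0, fun y hy w k1 k2 => ?_⟩
  rcases eq_or_ne w 0 with rfl | w0
  · simp [cu, cv]
  have n0 := norm_pos_iff.2 w0
  have e : cu (‖w‖⁻¹ • w) + cv (‖w‖⁻¹ • w) = ‖w‖⁻¹ * (cu w + cv w) := (mul_add _ _ _).symm
  have := hc' (y, ‖w‖⁻¹ • w) ⟨⟨⟨hy, by simp [norm_smul, n0.ne']⟩, by
    show form _ _ _ ≤ 0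
    rw [form_smul]
    exact mul_nonpos_of_nonneg_of_nonpos (sq_nonneg _) k1⟩, by
    show 0 ≤ cu (‖w‖⁻¹ • w) + cv (‖w‖⁻¹ • w)
    rw [e]; positivity⟩
  rw [e, le_inv_mul_iff₀ n0] at this
  rw [le_inv_mul_iff₀ c0]
  linarith

lemma conv_mono (ht0 : t0 < 1) (hε : ε * ε = 1) (H : ∀ t ∈ Ioo t0 1,
    (∃ f' > 0, HasDerivAt f (ε * f') t) ∧ |f t| ≤ A) :
    ∃ L, Tendsto f (𝓝[<] 1) (𝓝 L) := by
  have k := (mono_of_der (f := fun s => ε * f s) (convex_Ioo t0 1) fun t ht =>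
    let ⟨⟨f', k1, k2⟩, _⟩ := H t ht
    ⟨f', k1, by simpa only [← mul_assoc, hε, one_mul] using k2.const_mul ε⟩).monotoneOn
  have k1 := (k.tendsto_nhdsWithin_Ioo_left (nonempty_Ioo.2 ht0) ⟨|ε| * A, by
    rintro _ ⟨t, ht, rfl⟩
    exact (le_abs_self _).trans ((abs_mul _ _).trans_le
      (mul_le_mul_of_nonneg_left (H t ht).2 (abs_nonneg _)))⟩).const_mul ε
  exact ⟨_, by simpa only [← mul_assoc, hε, one_mul] using k1⟩

/-- a future or past curve with bounded `u`, `v` has an end point -/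
lemma lim_of (h : IsDN δ C) (ht0 : t0 < 1) (hε : ε * ε = 1) (hm : -δ < m)
    (H : ∀ t ∈ Ioo t0 1, ContinuousAt b t ∧ |uu δ (b t)| ≤ A ∧ |vv δ (b t)| ≤ A ∧
      m ≤ (uu δ (b t) + vv δ (b t)) / 2 ∧ ∀ σ, In δ σ (b t) → ∃ w,
        HasDerivAt (fun s => bs δ σ (b s)) (ε • w) t ∧ form (C σ) (bs δ σ (b t)) w < 0 ∧
        0 < cu w ∧ 0 < cv w) : ∃ x, Tendsto b (𝓝[<] 1) (𝓝 x) := by
  have hS : IsCompact {y : R4 | |cu y| ≤ A ∧ |cv y| ≤ A ∧ m ≤ (cu y + cv y) / 2 ∧ rr y ≤ 1} := by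
    refine (isCompact_closedBall 0 (max A 1)).of_isClosed_subset
      ((isClosed_le (by unfold cu; fun_prop) continuous_const).and
        ((isClosed_le (by unfold cv; fun_prop) continuous_const).and
        ((isClosed_le continuous_const (by unfold cu cv; fun_prop)).and
          (isClosed_le rr_smooth.continuous continuous_const)))) fun y k => ?_
    have k1 : y.2.2.1 ^ 2 + y.2.2.2 ^ 2 ≤ 1 := k.2.2.2
    simp only [mem_closedBall_zero_iff, Prod.norm_def, max_le_iff, Real.norm_eq_abs]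
    exact ⟨le_max_of_le_left k.1, le_max_of_le_left k.2.1,
      le_max_of_le_right (abs_le_one_iff_mul_self_le_one.2 (by nlinarith [sq_nonneg y.2.2.2])),
      le_max_of_le_right (abs_le_one_iff_mul_self_le_one.2 (by nlinarith [sq_nonneg y.2.2.1]))⟩
  choose K K0 hK using fun σ => causal_bound h σ hS fun y k =>
    ⟨hm.trans_le k.2.2.1, k.2.2.2.trans_lt (by norm_num)⟩
  have H' : ∀ t ∈ Ioo t0 1, ∃ σ, In δ σ (b t) ∧ rr (bs δ σ (b t)) ≤ 1 ∧ ∃ w,
      HasDerivAt (fun s => bs δ σ (b s)) (ε • w) t ∧ form (C σ) (bs δ σ (b t)) w < 0 ∧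
        0 < cu w ∧ 0 < cv w := fun t ht =>
    let ⟨σ, k, k'⟩ := exists_in δ (b t)
    ⟨σ, k, k', (H t ht).2.2.2.2 σ k⟩
  obtain ⟨u, hu⟩ := conv_mono (f := fun s => uu δ (b s)) ht0 hε fun t ht =>
    let ⟨_, _, _, w, k1, _, k2, _⟩ := H' t ht
    ⟨⟨_, k2, der_uu k1⟩, (H t ht).2.1⟩
  obtain ⟨v, hv⟩ := conv_mono (f := fun s => vv δ (b s)) ht0 hε fun t ht =>
    let ⟨_, _, _, w, k1, _, _, k2⟩ := H' t ht
    ⟨⟨_, k2, der_vv k1⟩, (H t ht).2.2.1⟩
  have e1 : |ε| = 1 := by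
    rw [← sq_eq_sq₀ (abs_nonneg _) zero_le_one, sq_abs, sq, hε, one_pow]
  obtain ⟨o, ho⟩ := conv_S2 (δ := δ) (b := b) ht0 (fun t ht => by
    obtain ⟨σ, k1, k2, w, k3, k4, k5, k6⟩ := H' t ht
    refine ⟨(H t ht).1, σ, _, _, k1.1, k3,
      ((der_uu k3).add (der_vv k3)).const_mul ((K true + K false) * ε), ?_⟩
    have k7 := hK σ (bs δ σ (b t)) ⟨(H t ht).2.1, (H t ht).2.2.1, (H t ht).2.2.2.1, k2⟩ w k4.le
      (by linarith)
    have k8 : K σ ≤ K true + K false := by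
      cases σ <;> linarith [K0 true, K0 false]
    have e : (K true + K false) * ε * (cu (ε • w) + cv (ε • w)) =
        (K true + K false) * (cu w + cv w) := by
      show _ * (ε * cu w + ε * cv w) = _
      linear_combination (K true + K false) * (cu w + cv w) * hε
    rw [e]
    refine ((norm_snd_le _).trans (norm_snd_le _)).trans ?_
    rw [norm_smul, Real.norm_eq_abs, e1, one_mul]
    exact k7.trans (mul_le_mul_of_nonneg_right k8 (by linarith)))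
    ((hu.add hv).const_mul _)
  refine lim_pt hu hv ho (hm.trans_le (ge_of_tendsto ((hu.add hv).div_const 2) ?_))
  exact mem_of_superset (Ioo_mem_nhdsLT ht0) fun t ht => (H t ht).2.2.2.1

lemma tau_gt (δ : ℝ) (p : Pt) : -δ < (uu δ p + vv δ p) / 2 := by
  rw [uu, vv]; linarith [Real.exp_pos p.1]

/-- **the slice `τ = 0` is a Cauchy hypersurface** -/
theorem cauchy (h : IsDN δ C) (H : IsFutureCurve (sp δ C) 0 (Ioo 0 1) a)
    (hl : ∀ x, ¬ Tendsto a (𝓝[<] 1) (𝓝 x) ∧ ¬ Tendsto a (𝓝[>] 0) (𝓝 x)) :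
    ∃! t, t ∈ Ioo (0 : ℝ) 1 ∧ (a t).1 = Real.log δ := by
  obtain ⟨mu, mv⟩ := uv_mono h H Subset.rfl
  have hn : ∀ t ∈ Ioo (0 : ℝ) 1, Ioo (0 : ℝ) 1 ∈ 𝓝 t := fun t ht => Ioo_mem_nhds ht.1 ht.2
  have hc : ∀ t ∈ Ioo (0 : ℝ) 1, ContinuousAt a t := fun t ht => H.1.continuousAt (hn t ht)
  have m0 : (1 / 2 : ℝ) ∈ Ioo (0 : ℝ) 1 := by norm_num
  have e : ∀ p : Pt, p.1 = Real.log δ ↔ uu δ p + vv δ p = 0 := fun p => by
    rw [uu, vv, ← Real.exp_eq_exp, Real.exp_log h.pos]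
    constructor <;> intro k <;> linarith
  have a1 := le_abs_self (uu δ (a (1 / 2)))
  have a2 := neg_abs_le (uu δ (a (1 / 2)))
  have a3 := le_abs_self (vv δ (a (1 / 2)))
  have a4 := neg_abs_le (vv δ (a (1 / 2)))
  obtain ⟨t1, h1, k1⟩ : ∃ t ∈ Ioo (0 : ℝ) 1, 0 ≤ uu δ (a t) + vv δ (a t) := by
    by_contra! k
    obtain ⟨x, hx⟩ := lim_of (b := a) (A := |uu δ (a (1 / 2))| + |vv δ (a (1 / 2))|) h m0.2
      (mul_one 1) (tau_gt δ (a (1 / 2))) fun t ht => by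
        have ht' : t ∈ Ioo (0 : ℝ) 1 := ⟨m0.1.trans ht.1, ht.2⟩
        have b1 := mu m0 ht' ht.1
        have b2 := mv m0 ht' ht.1
        have b3 := k t ht'
        exact ⟨hc t ht', abs_le.2 ⟨by linarith, by linarith⟩, abs_le.2 ⟨by linarith, by linarith⟩,
          by linarith, fun σ k' => by simpa only [one_smul] using vel_of_curve h H (hn t ht') k'⟩
    exact (hl x).1 hx
  obtain ⟨t2, h2, k2⟩ : ∃ t ∈ Ioo (0 : ℝ) 1, uu δ (a t) + vv δ (a t) ≤ 0 := by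
    by_contra! k
    obtain ⟨x, hx⟩ := lim_of (b := fun s => a (1 - s)) (ε := -1) (m := 0)
      (A := |uu δ (a (1 / 2))| + |vv δ (a (1 / 2))|) h m0.2 (by norm_num) (neg_lt_zero.2 h.pos)
      fun t ht => by
        have ht' : 1 - t ∈ Ioo (0 : ℝ) 1 := ⟨by linarith [ht.2], by linarith [ht.1]⟩
        have b1 := mu ht' m0 (by linarith [ht.1])
        have b2 := mv ht' m0 (by linarith [ht.1])
        have b3 := k _ ht'
        refine ⟨(hc _ ht').comp (f := fun s => 1 - s) (by fun_prop),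
          abs_le.2 ⟨by linarith, by linarith⟩, abs_le.2 ⟨by linarith, by linarith⟩,
          by linarith, fun σ k' => ?_⟩
        obtain ⟨w, k3, k4⟩ := vel_of_curve h H (hn _ ht') k'
        exact ⟨w, k3.scomp t ((hasDerivAt_id t).const_sub 1), k4⟩
    refine (hl x).2 ((hx.comp (f := fun s => 1 - s) ?_).congr fun s => by simp)
    refine tendsto_nhdsWithin_iff.2 ⟨tendsto_nhdsWithin_of_tendsto_nhds ?_,
      eventually_nhdsWithin_of_forall fun s hs => by simpa using hs⟩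
    simpa using (continuous_sub_left (1 : ℝ)).tendsto 0
  have hs : ContinuousOn (fun s => uu δ (a s) + vv δ (a s)) (Ioo 0 1) :=
    Continuous.comp_continuousOn (g := fun p : Pt => uu δ p + vv δ p) (by unfold uu vv; fun_prop) H.1
  obtain ⟨t, ht, k3⟩ := isPreconnected_Ioo.intermediate_value h2 h1 hs ⟨k2, k1⟩
  exact ⟨t, ⟨ht, (e _).2 k3⟩, fun s hs =>
    (mu.add mv).injOn hs.1 ht (((e _).1 hs.2).trans k3.symm)⟩

end Vale.Agent.P354P
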