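import Vale.Agent.P354P.Sp
import Vale.Agent.P354I.Core

/-!
Lens shaped domains: causal curves travel a small distance in the angles.
-/

open scoped ContDiff
open Set Filter Topology

noncomputable section

namespace Vale.Agent.P354P

open Vale.Agent.P354n (R4 cu cv c1 c2)
open Vale.Agent.P354C Vale.Agent.P354C.Ix
open Vale.Agent.P354A (Wt ex bY gB cls)

/-- bounds for the shift and the angular frame with small integrals, for `s τ ∈ [0, T]` -/
def Trav (U : R4 → Ix → ℝ) (s T η : ℝ) : Prop :=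
  ∃ B B' Γ Γ' : ℝ → ℝ, Continuous B' ∧ Continuous Γ' ∧ (∀ y, HasDerivAt B (B' y) y) ∧
    (∀ y, HasDerivAt Γ (Γ' y) y) ∧ ∀ p : R4, s * p.1 ∈ Icc 0 T →
      s * (B (p.1 + p.2.1) + Γ p.1) ∈ Icc 0 η ∧ 0 ≤ B' (p.1 + p.2.1) ∧
      (∀ i ∈ [b1, b2], |U p i| ≤ B' (p.1 + p.2.1) + Γ' p.1) ∧
      ∀ i ∈ [P11, P12, P21, P22], |U p i| ≤ Γ' p.1

lemma abs_lin {x y a b c : ℝ} (h : x ^ 2 + y ^ 2 ≤ 9) (ha : |a| ≤ c) (hb : |b| ≤ c) :
    |2 * x * a + 2 * y * b| ≤ 12 * c := by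
  have k : ∀ {x a : ℝ}, x ^ 2 ≤ 9 → |a| ≤ c → |2 * x * a| ≤ 6 * c := fun {x a} h ha => by
    rw [abs_mul, abs_mul, abs_two]
    exact mul_le_mul (by linarith [abs_le_of_sq_le_sq (a := x) (b := 3) (by linarith) (by norm_num)]) ha
      (abs_nonneg _) (by norm_num)
  linarith [abs_add_le (2 * x * a) (2 * y * b), k (x := x) (by nlinarith) ha,
    k (x := y) (by nlinarith) hb]

theorem lens {U : R4 → Ix → ℝ} {s T η a b : ℝ} (h : Trav U s T η) (hs : s = 1 ∨ s = -1)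
    (hb : b ≤ 9) {q : R4} (hq : s * q.1 ∈ Icc 0 T) (ha' : a + 24 * η < rr q)
    (hb' : rr q < b - 24 * η) : ∃ (φ : Fin 4 → R4 → ℝ) (D : Set R4), IsCompact D ∧
      (∀ p ∈ D, s * p.1 ∈ Icc 0 T ∧ rr p ∈ Icc a b) ∧ (∀ i, ContDiff ℝ 1 (φ i)) ∧
      (∀ p : R4, s * p.1 ∈ Icc 0 T → (∀ i, φ i p < 0) → p ∈ D ∧ ∀ i, Causal s U (φ i) p) ∧
      ∀ i, φ i q < 0 := by
  obtain ⟨B, B', Γ, Γ', cB, cΓ, hB, hΓ, H⟩ := h
  have s2 : s * s = 1 := by rcases hs with rfl | rfl <;> norm_num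
  have c1 : ∀ {B B' : ℝ → ℝ}, Continuous B' → (∀ y, HasDerivAt B (B' y) y) → ContDiff ℝ 1 B :=
    fun c h => contDiff_one_iff_deriv.2 ⟨fun y => (h y).differentiableAt,
      (funext fun y => (h y).deriv) ▸ c⟩
  have dB := c1 cB hB
  have dΓ := c1 cΓ hΓ
  let N := T + |q.2.1| + 1
  let G : ℝ → ℝ → R4 → ℝ := fun c k p =>
    k * (p.2.2.1 ^ 2 + p.2.2.2 ^ 2) + c + 24 * s * (B (p.1 + p.2.1) + Γ p.1)
  have dG : ∀ c k p v, fderiv ℝ (G c k) p v = k * (2 * p.2.2.1 * v.2.2.1 + 2 * p.2.2.2 * v.2.2.2) +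
      24 * s * (B' (p.1 + p.2.1) * (v.1 + v.2.1) + Γ' p.1 * v.1) := fun c k p v => by
    have i := hasFDerivAt_id (𝕜 := ℝ) p
    have := ((((i.snd.snd.fst.pow 2).add (i.snd.snd.snd.pow 2)).const_mul k).add_const c).add
      ((((hB _).comp_hasFDerivAt p (i.fst.add i.snd.fst)).add
        ((hΓ _).comp_hasFDerivAt p i.fst)).const_mul (24 * s))
    rw [HasFDerivAt.fderiv (f := G c k) this]
    simp
    ring
  have cG : ∀ c k p, k * k = 1 → s * p.1 ∈ Icc 0 T → rr p ≤ 9 → Causal s U (G c k) p :=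
    fun c k p k2 hp r => by
    obtain ⟨-, h1, h2, h3⟩ := H p hp
    have e0 := abs_le.1 (abs_lin r (h2 b1 (by simp)) (h2 b2 (by simp)))
    have e2 := sq_le_sq' (abs_le.1 (abs_lin r (h3 P11 (by simp)) (h3 P12 (by simp)))).1
      (abs_le.1 (abs_lin r (h3 P11 (by simp)) (h3 P12 (by simp)))).2
    have e3 := sq_le_sq' (abs_le.1 (abs_lin r (h3 P21 (by simp)) (h3 P22 (by simp)))).1
      (abs_le.1 (abs_lin r (h3 P21 (by simp)) (h3 P22 (by simp)))).2
    have g0 : 0 ≤ Γ' p.1 := (abs_nonneg _).trans (h3 P11 (by simp))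
    simp only [Causal, dG, fr, vec, E, Matrix.cons_val_zero, Matrix.cons_val_one, Matrix.cons_val,
      P354n.c1, c2] at e0 e2 e3 ⊢
    rcases hs with rfl | rfl <;> rcases mul_self_eq_one_iff.1 k2 with rfl | rfl <;>
      refine ⟨by linarith [e0.1, e0.2], by linarith, by nlinarith [e0.1, e0.2]⟩
  have dL : ∀ (k : ℝ) (p v : R4), fderiv ℝ (fun p : R4 => s * (p.1 + k * p.2.1) - N) p v =
      s * (v.1 + k * v.2.1) := fun k p v => by
    have i := hasFDerivAt_id (𝕜 := ℝ) p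
    rw [HasFDerivAt.fderiv (f := fun p : R4 => s * (p.1 + k * p.2.1) - N)
      (((i.fst.add (i.snd.fst.const_mul k)).const_mul s).sub_const N)]
    simp [mul_add]
  have cL : ∀ k p, k * k = 1 → Causal s U (fun p : R4 => s * (p.1 + k * p.2.1) - N) p :=
    fun k p k2 => by
    simp only [Causal, dL, fr, vec, E, Matrix.cons_val_zero, Matrix.cons_val_one, Matrix.cons_val]
    rcases hs with rfl | rfl <;> rcases mul_self_eq_one_iff.1 k2 with rfl | rfl <;> norm_num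
  refine ⟨![fun p => s * (p.1 + 1 * p.2.1) - N, fun p => s * (p.1 + -1 * p.2.1) - N,
    G (-b) 1, G a (-1)], {p | s * p.1 ∈ Icc 0 T ∧ rr p ∈ Icc a b ∧ |p.2.1| ≤ N}, ?_,
    fun p hp => ⟨hp.1, hp.2.1⟩, fun i => ?_, fun p hp k => ?_, fun i => ?_⟩
  · refine (isCompact_Icc (a := (-T, -N, -3, -3)) (b := (T, N, 3, 3))).of_isClosed_subset
      ((isClosed_Icc.preimage (by fun_prop)).and ((isClosed_Icc.preimage rr_smooth.continuous).and
        (isClosed_le (by fun_prop) continuous_const))) fun p ⟨k1, k2, k3⟩ => ?_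
    have r : p.2.2.1 ^ 2 + p.2.2.2 ^ 2 ≤ 9 := k2.2.trans hb
    have r1 := abs_le.1 (abs_le_of_sq_le_sq (a := p.2.2.1) (b := 3) (by nlinarith) (by norm_num))
    have r2 := abs_le.1 (abs_le_of_sq_le_sq (a := p.2.2.2) (b := 3) (by nlinarith) (by norm_num))
    have r0 : -T ≤ p.1 ∧ p.1 ≤ T := by
      rcases hs with rfl | rfl <;> constructor <;> linarith [k1.1, k1.2]
    exact ⟨⟨r0.1, (abs_le.1 k3).1, r1.1, r2.1⟩, r0.2, (abs_le.1 k3).2, r1.2, r2.2⟩
  · have k1 : ∀ k : ℝ, ContDiff ℝ 1 fun p : R4 => s * (p.1 + k * p.2.1) - N := fun k => by fun_prop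
    have k2 : ∀ c k, ContDiff ℝ 1 (G c k) := fun c k => by simp only [G]; fun_prop
    fin_cases i
    exacts [k1 _, k1 _, k2 _ _, k2 _ _]
  · have k0 : s * (p.1 + 1 * p.2.1) - N < 0 := k 0
    have k1 : s * (p.1 + -1 * p.2.1) - N < 0 := k 1
    have k2 : 1 * rr p + -b + 24 * s * _ < 0 := k 2
    have k3 : -1 * rr p + a + 24 * s * _ < 0 := k 3
    have k4 := (H p hp).1.1
    refine ⟨⟨hp, ⟨by linarith, by linarith⟩, ?_⟩, fun i => ?_⟩
    · rcases hs with rfl | rfl <;> rw [abs_le] <;> constructor <;> linarith [hp.1]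
    · fin_cases i
      exacts [cL 1 p (by norm_num), cL (-1) p (by norm_num),
        cG _ 1 p (by norm_num) hp (by linarith), cG _ (-1) p (by norm_num) hp (by linarith)]
  · have k4 := (H q hq).1.2
    have k5 := abs_le.1 (le_refl |q.2.1|)
    fin_cases i
    · show s * (q.1 + 1 * q.2.1) - (T + |q.2.1| + 1) < 0
      rcases hs with rfl | rfl <;> linarith [hq.2]
    · show s * (q.1 + -1 * q.2.1) - (T + |q.2.1| + 1) < 0
      rcases hs with rfl | rfl <;> linarith [hq.2]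
    · show 1 * rr q + -b + 24 * s * _ < 0
      linarith
    · show -1 * rr q + a + 24 * s * _ < 0
      linarith

lemma trav_back {U : R4 → Ix → ℝ} {T cb : ℝ} (h : ∀ p : R4, p.1 ∈ Icc (-T) 0 → ∀ i, |U p i| ≤ cb) :
    Trav U (-1) T (|cb| * T) :=
  ⟨fun _ => 0, fun _ => 0, fun t => |cb| * t, fun _ => |cb|, continuous_const, continuous_const,
    fun y => hasDerivAt_const y 0, fun y => hasDerivAt_const_mul _, fun p hp => by
      have k := fun i => (h p ⟨by linarith [hp.2], by linarith [hp.1]⟩ i).trans (le_abs_self cb)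
      exact ⟨⟨by nlinarith [abs_nonneg cb, hp.1], by nlinarith [abs_nonneg cb, hp.2]⟩, le_rfl,
        fun i _ => (zero_add |cb|).symm ▸ k i, fun i _ => k i⟩⟩

lemma trav_fwd {U : R4 → Ix → ℝ} {k A0 ε η : ℝ} {a A : ℝ → ℝ} (hk : 0 < k) (hW : Wt k a A A0)
    (hε : 0 ≤ ε) (hη : 0 ≤ η) (h : ∀ p : R4, 0 ≤ p.1 → ∀ i ∈ [b1, b2, P11, P12, P21, P22],
      |U p i| ≤ ε * bY k a (cls i) p.1 p.2.1 + gB k η i p.1) (T : ℝ) :
    Trav U 1 T (ε * A0 + (ε + η) * (4 / k)) := by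
  have ca : Continuous a := continuous_iff_continuousAt.2 fun y => (hW.der y).choose_spec.1.continuousAt
  refine ⟨fun y => ε * A y, fun y => ε * a y, fun t => (ε + η) * (4 / k * (1 - ex k 4 t)),
    fun t => (ε + η) * ex k 4 t, by fun_prop, by unfold ex; fun_prop,
    fun y => (hW.prim y).const_mul ε, fun t => HasDerivAt.const_mul _ ?_, fun p hp => ?_⟩
  · refine (((((hasDerivAt_id t).const_mul (-(4 * k / 16))).exp).const_sub 1).const_mul _).congr_deriv ?_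
    simp only [ex, id]
    field_simp
    ring
  rw [one_mul] at hp
  have e0 : 0 < ex k 4 p.1 := Real.exp_pos _
  have e1 : ex k 4 p.1 ≤ 1 := Real.exp_le_one_iff.2 (by nlinarith [hp.1])
  have e2 : η * ex k 8 p.1 ≤ η * ex k 4 p.1 :=
    mul_le_mul_of_nonneg_left (Real.exp_le_exp.2 (by nlinarith [hp.1])) hη
  have e3 : ε * (ex k 4 p.1 * a p.2.1) ≤ ε * ex k 4 p.1 :=
    mul_le_mul_of_nonneg_left (mul_le_of_le_one_right e0.le (hW.le _)) hε
  have e4 : 0 < 4 / k := by positivity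
  have e5 := mul_nonneg hε e0.le
  refine ⟨⟨?_, ?_⟩, mul_nonneg hε (hW.pos _).le, fun i hi => ?_, fun i hi => ?_⟩
  · have := hW.nn (p.1 + p.2.1)
    have := sub_nonneg.2 e1
    positivity
  · rw [one_mul]
    exact add_le_add (mul_le_mul_of_nonneg_left (hW.bd _) hε)
      (mul_le_mul_of_nonneg_left (mul_le_of_le_one_right e4.le (by linarith)) (add_nonneg hε hη))
  · have := h p hp.1 i (by simp only [List.mem_cons] at hi ⊢; tauto)
    simp only [List.mem_cons, List.not_mem_nil, or_false] at hi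
    rcases hi with rfl | rfl <;> simp only [bY, cls, gB, P354A.isQ, Bool.false_eq_true, if_false] at this <;>
      linarith
  · have := h p hp.1 i (by simp only [List.mem_cons] at hi ⊢; tauto)
    simp only [List.mem_cons, List.not_mem_nil, or_false] at hi
    rcases hi with rfl | rfl | rfl | rfl <;>
      simp only [bY, cls, gB, P354A.isQ, Bool.false_eq_true, if_false] at this <;> linarith

end Vale.Agent.P354P
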