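import Vale.Agent.P354P.Slice
import Vale.Agent.P354P.Lens

/-!
The solutions in the two charts fit together.
-/

open scoped ContDiff
open Set Filter Topology

noncomputable section

namespace Vale.Agent.P354P

open Vale.Agent.P354n (R4)
open Vale.Agent.P354C Vale.Agent.P354C.Ix
open Vale.Agent.P354I (IsCh)
open Vale.Agent.P354J
open Vale.Agent.P354A (Wt bY gB cls)

lemma Full.solves {U : R4 → Ix → ℝ} {p : R4} (h : Full (U p) (dfr U p)) : Solves U p := fun i => by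
  rw [res, h.eqN, h.eqL, add_zero]

/-- the smallness of all parameters -/
lemma exists_small {k A0 cb : ℝ} (hk : 0 < k) (hA : 0 ≤ A0) {c : ℝ} (hc : 0 < c) : ∃ μ > 0,
    (∀ ε ∈ Icc 0 μ, ∀ η ∈ Icc 0 μ, ε * A0 + (ε + η) * (4 / k) ≤ c) ∧
      ∀ δ ∈ Icc 0 μ, |cb| * δ ≤ c := by
  have h0 : 0 < A0 + 8 / k + |cb| := by positivity
  have h1 : 0 < 4 / k := by positivity
  have h2 := abs_nonneg cb
  have e : c / (A0 + 8 / k + |cb|) * (A0 + 2 * (4 / k) + |cb|) = c := by field_simp; ring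
  have h3 := div_pos hc h0
  refine ⟨c / (A0 + 8 / k + |cb|), h3, fun ε hε η hη => ?_, fun δ hδ => ?_⟩
  · nlinarith [mul_le_mul_of_nonneg_right hε.2 hA, mul_le_mul_of_nonneg_right hε.2 h1.le,
      mul_le_mul_of_nonneg_right hη.2 h1.le, mul_nonneg h3.le h2]
  · nlinarith [mul_le_mul_of_nonneg_right hδ.2 h2, mul_nonneg h3.le hA, mul_pos h3 h1]

lemma Trav.mono {U : R4 → Ix → ℝ} {s T η η' : ℝ} (h : Trav U s T η) (k : η ≤ η') : Trav U s T η' :=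
  let ⟨B, B', Γ, Γ', h1, h2, h3, h4, H⟩ := h
  ⟨B, B', Γ, Γ', h1, h2, h3, h4, fun p hp => ⟨⟨(H p hp).1.1, (H p hp).1.2.trans k⟩, (H p hp).2⟩⟩

/-- each point lies in a slab with small angular travel -/
lemma exists_trav {k A0 cb c : ℝ} {a A : ℝ → ℝ} (hk : 0 < k) (hW : Wt k a A A0) (hc : 0 < c) :
    ∃ μ > 0, ∀ ε ∈ Icc 0 μ, ∀ η ∈ Icc 0 μ, ∀ δ ∈ Ioc 0 μ, ∀ U : R4 → Ix → ℝ,
      (∀ p : R4, 0 ≤ p.1 → ∀ i ∈ [b1, b2, P11, P12, P21, P22],
        |U p i| ≤ ε * bY k a (cls i) p.1 p.2.1 + gB k η i p.1) →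
      (∀ p : R4, p.1 ∈ Ioc (-δ) 0 → ∀ i, |U p i| ≤ cb) → ∀ t, -δ < t → ∃ s T, (s = 1 ∨ s = -1) ∧
        s * t ∈ Icc 0 T ∧ (∀ t', s * t' ∈ Icc 0 T → -δ < t') ∧ Trav U s T c := by
  obtain ⟨μ, hμ, h1, h2⟩ := exists_small (cb := cb) hk ((hW.nn 0).trans (hW.bd 0)) hc
  refine ⟨μ, hμ, fun ε hε η hη δ hδ U hY hb t ht => ?_⟩
  rcases le_total 0 t with k | k
  · exact ⟨1, t, .inl rfl, ⟨by linarith, by linarith⟩, fun t' k' => by linarith [k'.1, hδ.1],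
      (trav_fwd hk hW hε.1 hη.1 hY t).mono (h1 ε hε η hη)⟩
  · exact ⟨-1, -t, .inr rfl, ⟨by linarith, by linarith⟩, fun t' k' => by linarith [k'.2],
      (trav_back fun p hp => hb p ⟨by linarith [hp.1], hp.2⟩).mono
        (h2 _ ⟨by linarith, by linarith [hδ.2]⟩)⟩

theorem compat (hV : VAC) (hC : CONV) (hU : UNI) (h1 : SL1) (h2 : SL2) (h3 : DSL) (h4 : UQ)
    (h5 : FU) (hI : IND) : COMPAT := fun k a A A0 cb hk hW => by
  obtain ⟨μ, hμ, H⟩ := exists_trav (cb := cb) hk hW (by norm_num : (0 : ℝ) < 1 / 1000)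
  refine ⟨μ, hμ, fun ε hε η hη δ hδ d U hd h => ⟨hδ.1, fun σ i => ((h σ).smooth i).mono fun _ k => k.1,
    fun σ p hp => ?_, fun σ z hz => ?_, fun σ q hq r a b => ?_⟩⟩
  · have := (h σ).full p hp.1 (hp.2.trans (by norm_num : (4 : ℝ) < 25 / 4))
    exact ⟨this.2.1, this.2.2, this.1⟩
  · rw [(h σ).init z (by linarith)]
    exact ((h1 _ _ (h2 d σ hd).1).2 z).2.2.2.2.1
  have o := isOpen_An δ
  have hs : ∀ σ, SmU (U σ) (An δ) := fun σ i => ((h σ).smooth i).mono fun _ k => k.1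
  have hf : ∀ σ, ∀ p ∈ An δ, U σ p O ≠ 0 ∧ detP (U σ p) ≠ 0 ∧ Full (U σ p) (dfr (U σ) p) :=
    fun σ p hp => let k := (h σ).full p hp.1 hp.2.2; ⟨k.2.1.ne', k.2.2, k.1⟩
  obtain ⟨P, s, F⟩ := flipped hV hC o o (hs (!σ)) (fun p hp => (An_pos hp).ne') (maps_An δ) (hf (!σ))
  obtain ⟨ε', T, e1, e2, e3, e4⟩ := H ε hε η hη δ hδ (U σ) (fun p hp i hi => by
    have := (h σ).Y p hp i [] (Nat.zero_le _)
    simp only [List.mem_cons, List.not_mem_nil, or_false] at hi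
    rcases hi with rfl | rfl | rfl | rfl | rfl | rfl <;> exact (congrArg _ (sub_zero _)).symm.trans_le this)
    (h σ).back q.1 hq.1
  obtain ⟨φ, D, d1, d2, d3, d4, d5⟩ := lens (a := 1 / 5) (b := 6) e4 e1 (by norm_num) e2
    (by linarith) (by linarith [hq.2])
  have sub : D ⊆ An δ := fun p hp =>
    ⟨e3 _ (d2 p hp).1, by linarith [(d2 p hp).2.1], by linarith [(d2 p hp).2.2]⟩
  have key : U σ q = L2 (Uf (U (!σ))) q := by
    refine hU _ _ _ φ (An δ) D ε' 0 T e1 o d1 sub (hs σ) s d3 (fun p hp k => ?_) (fun p hp k => ?_)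
      q (by rwa [sub_zero]) d5
    · obtain ⟨m, c⟩ := d4 p (by rwa [sub_zero] at hp) k
      exact ⟨m, Full.solves (hf σ p (sub m)).2.2, Full.solves (F p (sub m)), c⟩
    · obtain ⟨t, z⟩ := p
      obtain rfl : t = 0 := hp
      exact slice_eq hV hC h1 h2 h3 h4 h5 hI hd hs (fun σ z hz => (h σ).init z
        (hz.2.2.le.trans (by norm_num))) hf (sub (d4 _ ⟨by simp, by simpa using e2.1.trans e2.2⟩ k).1)
  rw [← P.eq q ⟨hq.1, by linarith, by linarith [hq.2]⟩, met, met, key]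

end Vale.Agent.P354P
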