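import Vale.Agent.P354P.Devel
import Vale.Agent.P354P.Compat
import Vale.Agent.P354Q.Conv
import Vale.Agent.P354CU.Uni
import Vale.Agent.P354J.Uq
import Vale.Agent.P354J.Pull

/-!
Block B6.
-/

namespace Vale.Agent.P354P

theorem devel_main : P354I.DEVEL :=
  devel P354Q.vac P354J.ind P354JK.inv (compat P354Q.vac P354Q.conv P354CU.uni P354J.sl1 P354J.sl2
    P354J.dslThm P354J.uq P354J.fu P354J.ind)

end Vale.Agent.P354P
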