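import Vale.Agent.P354E.GeoDefs

/-!
The spacetime of a double null metric given in the two stereographic charts.
-/

open scoped ContDiff
open Set Filter Topology

noncomputable section

namespace Vale.Agent.P354P

open Vale.Agent.P354n (R4 Spc On tgt co inv cu cv c1 c2 h1 h2 form IsSmooth)
open Vale.Agent.P354E (S2 st sti src st_src sti_st st_sti isOpen_src sti_cont st_cont src_cover)

/-- the bilinear form of the double null form -/
def bil (C : ℕ → R4 → ℝ) (x a b : R4) : ℝ :=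
  C 0 x * (h1 C x a * h1 C x b) + C 1 x / 2 * (h1 C x a * h2 C x b + h2 C x a * h1 C x b) +
    C 2 x * (h2 C x a * h2 C x b) - C 3 x / 2 * (cu a * cv b + cv a * cu b)

/-- the sum of the two null generators -/
def X0 (C : ℕ → R4 → ℝ) (x : R4) : R4 := (1, 1, C 4 x + C 6 x, C 5 x + C 7 x)

/-- the square of the Euclidean norm of the angular coordinates -/
def rr (y : R4) : ℝ := c1 y ^ 2 + c2 y ^ 2

/-- the change of the stereographic chart -/
def flip (y : R4) : R4 := (cu y, cv y, c1 y / rr y, c2 y / rr y)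

/-- the part of the charts where the coefficients are given -/
def Dm (δ : ℝ) : Set R4 := {y | -δ < (cu y + cv y) / 2 ∧ rr y < 4}

/-- the coefficients of a double null metric in both charts -/
structure IsDN (δ : ℝ) (C : Bool → ℕ → R4 → ℝ) : Prop where
  pos : 0 < δ
  smooth : ∀ σ i, IsSmooth (C σ i) (Dm δ)
  om : ∀ σ, ∀ y ∈ Dm δ, 0 < C σ 3 y
  g0 : ∀ σ, ∀ y ∈ Dm δ, 0 < C σ 0 y
  det : ∀ σ, ∀ y ∈ Dm δ, C σ 1 y ^ 2 < 4 * (C σ 0 y * C σ 2 y)
  compat : ∀ σ, ∀ y ∈ Dm δ, 1 / 4 < rr y → ∀ a,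
    form (C σ) y a = form (C (!σ)) (flip y) (fderiv ℝ flip y a)

/-- the points: `log (τ + δ)`, `x`, the point of the sphere; `u = τ - x`, `v = τ + x` -/
abbrev Pt : Type := ℝ × ℝ × S2

/-- the coordinates `(u, v, y1, y2)` -/
def bs (δ : ℝ) (σ : Bool) (p : Pt) : R4 :=
  (Real.exp p.1 - δ - p.2.1, Real.exp p.1 - δ + p.2.1, sti σ p.2.2)

/-- the point with given coordinates -/
def sb (δ : ℝ) (σ : Bool) (y : R4) : Pt :=
  (Real.log ((cu y + cv y) / 2 + δ), (cv y - cu y) / 2, st σ y.2.2)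

/-- the stereographic charts -/
def base (δ : ℝ) (σ : Bool) : OpenPartialHomeomorph Pt R4 where
  toFun := bs δ σ
  invFun := sb δ σ
  source := {p | p.2.2 ∈ src σ}
  target := {y | -δ < (cu y + cv y) / 2}
  map_source' p _ := by
    show -δ < (Real.exp p.1 - δ - p.2.1 + (Real.exp p.1 - δ + p.2.1)) / 2
    linarith [Real.exp_pos p.1]
  map_target' _ _ := st_src _ _
  left_inv' p h := by
    refine Prod.ext ?_ (Prod.ext ?_ (st_sti _ h))
    · simp only [sb, bs, cu, cv]
      rw [← Real.log_exp p.1, Real.exp_log (Real.exp_pos _)]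
      congr 1; ring
    · simp only [sb, bs, cu, cv]; ring
  right_inv' y h := by
    have k : Real.exp (Real.log ((cu y + cv y) / 2 + δ)) = (cu y + cv y) / 2 + δ :=
      Real.exp_log (by have : -δ < (cu y + cv y) / 2 := h; linarith)
    simp only [sb, bs, k, sti_st]
    exact Prod.ext (by simp only [cu, cv]; ring) (Prod.ext (by simp only [cu, cv]; ring) rfl)
  open_source := (isOpen_src σ).preimage (by fun_prop)
  open_target := isOpen_lt continuous_const (by unfold cu cv; fun_prop)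
  continuousOn_toFun := by
    refine ContinuousOn.prodMk (by fun_prop) (ContinuousOn.prodMk (by fun_prop) ?_)
    exact (sti_cont σ).comp (by fun_prop) fun _ h => h
  continuousOn_invFun := by
    refine ContinuousOn.prodMk (ContinuousOn.log (by unfold cu cv; fun_prop) fun y h => ?_)
      (Continuous.continuousOn (Continuous.prodMk (by unfold cu cv; fun_prop)
        ((st_cont σ).comp (by fun_prop))))
    have : -δ < (cu y + cv y) / 2 := h
    linarith

/-- smooth local coordinates on a part of a stereographic chart -/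
structure Ch (δ : ℝ) where
  σ : Bool
  ξ : OpenPartialHomeomorph R4 R4
  sm : ContDiffOn ℝ ∞ ξ ξ.source
  sm' : ContDiffOn ℝ ∞ ξ.symm ξ.target
  sub : ξ.source ⊆ Dm δ

lemma isOpen_Dm (δ : ℝ) : IsOpen (Dm δ) :=
  IsOpen.and (isOpen_lt continuous_const (by unfold cu cv; fun_prop))
    (isOpen_lt (by unfold rr c1 c2; fun_prop) continuous_const)

/-- the stereographic coordinates themselves -/
def Ch.id (δ : ℝ) (σ : Bool) : Ch δ :=
  ⟨σ, OpenPartialHomeomorph.ofSet (Dm δ) (isOpen_Dm δ), contDiffOn_id, contDiffOn_id, Subset.rfl⟩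

/-- the coordinates `(u, v, y1, y2)` of the point with coordinates `(τ, x, y1, y2)` -/
def uv : R4 ≃L[ℝ] R4 := LinearEquiv.toContinuousLinearEquiv
  { toFun := fun p => (p.1 - p.2.1, p.1 + p.2.1, p.2.2)
    invFun := fun y => ((y.1 + y.2.1) / 2, (y.2.1 - y.1) / 2, y.2.2)
    map_add' := fun a b => Prod.ext (by simp; ring) (Prod.ext (by simp; ring) rfl)
    map_smul' := fun k a => Prod.ext (by simp; ring) (Prod.ext (by simp; ring) rfl)
    left_inv := fun p => Prod.ext (by simp) (Prod.ext (by simp) rfl)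
    right_inv := fun y => Prod.ext (by simp; ring) (Prod.ext (by simp; ring) rfl) }

/-- the coordinates `(τ, x, y1, y2)` -/
def Ch.tx (δ : ℝ) (σ : Bool) : Ch δ :=
  ⟨σ, uv.symm.toHomeomorph.toOpenPartialHomeomorph.restrOpen (Dm δ) (isOpen_Dm δ),
    uv.symm.contDiff.contDiffOn, uv.contDiff.contDiffOn, fun _ h => h.2⟩

/-- each point lies in the unit disc of one of the charts -/
lemma exists_disc (δ : ℝ) (p : Pt) : ∃ σ, p.2.2 ∈ src σ ∧ rr (bs δ σ p) ≤ 1 := by
  have h := P354E.S2_sq p.2.2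
  have key : ∀ σ, 0 ≤ P354E.sg σ * p.2.2.1 2 → p.2.2 ∈ src σ ∧ rr (bs δ σ p) ≤ 1 := fun σ k => by
    have k1 : 0 < 1 + P354E.sg σ * p.2.2.1 2 := by linarith
    refine ⟨k1.ne', ?_⟩
    simp only [rr, c1, c2, bs, sti, div_pow, ← add_div]
    rw [div_le_one (by positivity)]
    nlinarith [P354E.sg_sq σ, mul_self_nonneg (P354E.sg σ * p.2.2.1 2)]
  rcases le_total 0 (p.2.2.1 2) with k | k
  · exact ⟨true, key true (by simpa [P354E.sg] using k)⟩
  · exact ⟨false, key false (by simpa [P354E.sg] using k)⟩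

lemma bs_mem (δ : ℝ) (σ : Bool) (p : Pt) (h : rr (bs δ σ p) < 4) : bs δ σ p ∈ Dm δ :=
  ⟨by simp only [bs, cu, cv]; linarith [Real.exp_pos p.1], h⟩

/-- the spacetime, with all smooth local coordinates as charts -/
def sp (δ : ℝ) (C : Bool → ℕ → R4 → ℝ) : Spc where
  pt := Pt
  Chart := Ch δ
  toE c := (base δ c.σ).trans c.ξ
  cover p := by
    obtain ⟨σ, k1, k2⟩ := exists_disc δ p
    exact ⟨Ch.id δ σ, k1, bs_mem δ σ p (by linarith)⟩
  g c y a b := bil (C c.σ) (c.ξ.symm y) (fderiv ℝ c.ξ.symm y a) (fderiv ℝ c.ξ.symm y b)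
  X c y := fderiv ℝ c.ξ (c.ξ.symm y) (X0 (C c.σ) (c.ξ.symm y))

/-- the embedding of the initial hypersurface `τ = 0` -/
def jj (δ : ℝ) (z : ℝ × S2) : Pt := (Real.log δ, z.1, z.2)

/-- the functions `u` and `v` -/
def uu (δ : ℝ) (p : Pt) : ℝ := Real.exp p.1 - δ - p.2.1
def vv (δ : ℝ) (p : Pt) : ℝ := Real.exp p.1 - δ + p.2.1

/-- the point `p` lies in the part of the chart `σ` where the coefficients are given -/
def In (δ : ℝ) (σ : Bool) (p : Pt) : Prop := p.2.2 ∈ src σ ∧ rr (bs δ σ p) < 4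

/-- the conditions for a future curve at the time `t`, in the stereographic chart `σ` -/
def Fut (δ : ℝ) (C : Bool → ℕ → R4 → ℝ) (m : ℝ) (I : Set ℝ) (a : ℝ → Pt) (σ : Bool) (t : ℝ) : Prop :=
  ContDiffWithinAt ℝ 1 (fun s => bs δ σ (a s)) I t ∧
    form (C σ) (bs δ σ (a t)) (derivWithin (fun s => bs δ σ (a s)) I t) < -m ∧
    0 < cu (derivWithin (fun s => bs δ σ (a s)) I t) + cv (derivWithin (fun s => bs δ σ (a s)) I t)

end Vale.Agent.P354P
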