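import Vale.Agent.P354P.Cau
import Vale.Agent.P354P.Iface
import Vale.Agent.P354L.Defs
import Vale.Agent.P354RC.Pull

/-!
The development of the data.
-/

open scoped ContDiff
open Set Filter Topology

noncomputable section

namespace Vale.Agent.P354P

open Vale.Agent.P354n (R4 cu cv c1 c2 h1 h2 form IsVacuum co)
open Vale.Agent.P354C
open Vale.Agent.P354E (S2 sti sg)
open Vale.Agent.P354H (X3)
open Vale.Agent.P354I (X Dat IsDev)
open Vale.Agent.P354J (IND INV Psi nU)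
open Vale.Agent.P354R (Met Vac Pull)
open Vale.Agent.P354RC (k2)

variable {δ R : ℝ} {C : Bool → ℕ → R4 → ℝ} {σ : Bool} {d : Dat} {U : Bool → R4 → Ix → ℝ} {y : R4}

/-! ### the input of block B7 -/

theorem sat : P354L.Sat (sp δ C) := fun (c : Ch δ) ξ _ h1 h2 =>
  ⟨⟨c.σ, c.ξ.trans ξ, h1.comp (c.sm.mono inter_subset_left) fun _ k => k.2,
    c.sm'.comp (h2.mono inter_subset_left) fun _ k => k.2, inter_subset_left.trans c.sub⟩,
    fun _ k k' => ⟨⟨k.1, k.2, k'⟩, rfl⟩⟩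

theorem base_sp (h : ∀ σ y, C σ 6 y = 0 ∧ C σ 7 y = 0) :
    P354L.Base (sp δ C) (uu δ) (vv δ) (Ch.id δ) C (2 * δ) {w | w.1 ^ 2 + w.2 ^ 2 ≤ 1}
      {w | w.1 ^ 2 + w.2 ^ 2 < 4} where
  cpt := by
    refine (isCompact_closedBall 0 1).of_isClosed_subset (isClosed_le (by fun_prop) continuous_const)
      fun w (k : w.1 ^ 2 + w.2 ^ 2 ≤ 1) => ?_
    simp only [mem_closedBall_zero_iff, Prod.norm_def, max_le_iff, Real.norm_eq_abs]
    exact ⟨abs_le_one_iff_mul_self_le_one.2 (by nlinarith [sq_nonneg w.2]),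
      abs_le_one_iff_mul_self_le_one.2 (by nlinarith [sq_nonneg w.1])⟩
  opn := isOpen_lt (by fun_prop) continuous_const
  sub w (k : w.1 ^ 2 + w.2 ^ 2 ≤ 1) := k.trans_lt (by norm_num : (1 : ℝ) < 4)
  cover p := let ⟨σ, k, k'⟩ := exists_in δ p; ⟨σ, on_id.2 k, k'⟩
  uv _ _ _ := ⟨rfl, rfl⟩
  dom p := by linarith [tau_gt δ p]
  met σ x k k' := ⟨tgt_id ▸ ⟨by linarith, k'⟩, fun a => by rw [g_id, bil_self],
    by rw [X_id]; exact one_pos, h σ x⟩

/-! ### the metric -/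

lemma isOpen_Dt (δ R : ℝ) : IsOpen (Dt δ R) :=
  IsOpen.and (isOpen_lt continuous_const continuous_fst) (isOpen_lt rr_smooth.continuous continuous_const)

lemma mem_Dm : y ∈ Dm δ ↔ uv.symm y ∈ Dt δ 4 := Iff.rfl

lemma uv_mem : uv y ∈ Dm δ ↔ y ∈ Dt δ 4 := by rw [mem_Dm, uv.symm_apply_apply]

lemma bil_coef (a b : R4) :
    bil (coef U σ) y a b = met (U σ) (uv.symm y) (uv.symm a) (uv.symm b) := by
  have e : ∀ a : R4, uv.symm a = ((a.1 + a.2.1) / 2, (a.2.1 - a.1) / 2, a.2.2) := fun _ => rfl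
  simp only [bil, coef, cfu, met, eta, th, h1, h2, cu, cv, c1, c2, e a, e b, div_eq_mul_inv, ← inv_pow,
    Matrix.cons_val_zero, Matrix.cons_val_one, Matrix.cons_val]
  ring

lemma g_tx_coef : (sp δ (coef U)).g (Ch.tx δ σ) = met (U σ) := by
  funext p a b
  simp only [g_tx, bil_coef, uv.symm_apply_apply]

lemma IsDN.met (h : IsDN δ C) (σ : Bool) : Met (bil (C σ)) (Dm δ) where
  lin y _ a := ⟨fun b c => by
      simp only [bil, h1, h2, cu, cv, c1, c2, Prod.fst_add, Prod.snd_add]; ring,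
    fun k b => by
      simp only [bil, h1, h2, cu, cv, c1, c2, Prod.smul_fst, Prod.smul_snd, smul_eq_mul]; ring⟩
  symm y _ a b := by simp only [bil]; ring
  nondeg y hy a H := by
    have k0 := (h.om σ y hy).ne'
    have k1 := H (0, 1, C σ 4 y, C σ 5 y)
    have k2 := H (1, 0, C σ 6 y, C σ 7 y)
    have k3 := H a
    simp [bil, h1, h2, cu, cv, c1, c2, k0] at k1 k2
    rw [bil_self, form, cu, k1, mul_zero, zero_mul, sub_zero] at k3
    obtain ⟨e3, e4⟩ := (ang_nonneg (h.g0 σ _ hy) (h.det σ _ hy)).2 k3.le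
    simp only [h1, h2, cu, cv, k1, k2, mul_zero, sub_zero] at e3 e4
    exact Prod.ext k1 (Prod.ext k2 (Prod.ext e3 e4))
  smooth a b := bil_smooth h contDiffOn_id (mapsTo_id _) contDiffOn_const contDiffOn_const

lemma fderiv_flip_uv (h : rr y ≠ 0) (a : R4) :
    uv.symm (fderiv ℝ flip y a) = fderiv ℝ flip (uv.symm y) (uv.symm a) := by
  have k1 := ((flip_smooth h).differentiableAt (by simp)).hasFDerivAt
  have k2 := ((flip_smooth (y := uv.symm y) h).differentiableAt (by simp)).hasFDerivAt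
  exact DFunLike.congr_fun ((uv.symm.hasFDerivAt.comp y k1).unique (k2.comp y uv.symm.hasFDerivAt)) a

lemma Glob.isDN (h : Glob d δ U) : IsDN δ (coef U) where
  pos := h.pos
  smooth σ i := by
    have k : ∀ j, ContDiffOn ℝ ∞ (fun y => U σ (uv.symm y) j) (Dm δ) := fun j =>
      (h.sm σ j).comp uv.symm.contDiff.contDiffOn fun _ k => k
    have kd : ContDiffOn ℝ ∞ (fun y => detP (U σ (uv.symm y)) ^ 2) (Dm δ) :=
      (((k _).mul (k _)).sub ((k _).mul (k _))).pow 2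
    have k0 : ∀ y ∈ Dm δ, detP (U σ (uv.symm y)) ^ 2 ≠ 0 := fun y hy =>
      pow_ne_zero 2 (h.full σ _ (mem_Dm.1 hy)).2.1
    rcases i with _ | _ | _ | _ | _ | _ | i
    · exact (((k _).pow 2).mul (((k _).pow 2).add ((k _).pow 2))).div kd k0
    · exact ((contDiffOn_const.mul ((k _).pow 2)).mul
        (((k _).mul (k _)).add ((k _).mul (k _)))).div kd k0
    · exact (((k _).pow 2).mul (((k _).pow 2).add ((k _).pow 2))).div kd k0
    · exact (k _).pow 2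
    · exact (k _).div_const 2
    · exact (k _).div_const 2
    · exact contDiffOn_const
  om σ y hy := pow_pos (h.full σ _ (mem_Dm.1 hy)).1 2
  g0 σ y hy := by
    obtain ⟨k1, k2, -⟩ := h.full σ _ (mem_Dm.1 hy)
    refine div_pos (mul_pos (pow_pos k1 2) (lt_of_le_of_ne (by positivity) fun e => k2 ?_))
      (by positivity)
    rw [detP, pow_eq_zero_iff two_ne_zero |>.1 (show U σ (uv.symm y) .P22 ^ 2 = 0 by
      nlinarith [sq_nonneg (U σ (uv.symm y) .P22), sq_nonneg (U σ (uv.symm y) .P12)]),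
      pow_eq_zero_iff two_ne_zero |>.1 (show U σ (uv.symm y) .P12 ^ 2 = 0 by
      nlinarith [sq_nonneg (U σ (uv.symm y) .P22), sq_nonneg (U σ (uv.symm y) .P12)])]
    ring
  det σ y hy := by
    obtain ⟨k1, k2, -⟩ := h.full σ _ (mem_Dm.1 hy)
    have e : 4 * (coef U σ 0 y * coef U σ 2 y) - coef U σ 1 y ^ 2 =
        4 * U σ (uv.symm y) .O ^ 4 / detP (U σ (uv.symm y)) ^ 2 := by
      simp only [coef, cfu]
      field_simp
      rw [detP]; ring
    exact sub_pos.1 (e ▸ by positivity)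
  compat σ y hy k a := by
    have r0 : rr y ≠ 0 := by linarith [k] |> fun h : 0 < rr y => h.ne'
    rw [← bil_self, ← bil_self, bil_coef, bil_coef, h.compat σ (uv.symm y) (mem_Dm.1 hy) k,
      fderiv_flip_uv r0]
    rfl

lemma Glob.met (h : Glob d δ U) (σ : Bool) : Met (met (U σ)) (Dt δ 4) :=
  k2.1 uv _ _ _ _ ⟨isOpen_Dt _ _, isOpen_Dm δ, h.isDN.met σ, uv.contDiff.contDiffOn,
    fun _ k => uv_mem.2 k, fun y _ => by rw [uv.fderiv]; exact uv.injective,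
    fun y _ a b => by simp only [uv.fderiv, bil_coef, ContinuousLinearEquiv.coe_coe,
      uv.symm_apply_apply]⟩

lemma vac_of_full (hV : VAC) {W : R4 → Ix → ℝ} {D : Set R4} (hD : IsOpen D) (hs : SmU W D)
    (h : ∀ p ∈ D, W p .O ≠ 0 ∧ detP (W p) ≠ 0 ∧ Full (W p) (dfr W p)) :
    (∀ p ∈ D, P354n.IsConn (met W) (con W) p) ∧ Vac (met W) D := by
  have k := hV W D hD hs fun p hp => ⟨(h p hp).2.1, (h p hp).1, (h p hp).2.2.tor, (h p hp).2.2.dO⟩
  exact ⟨fun p hp => (k p hp).1, con W, fun p hp => ⟨(k p hp).1, (k p hp).2.2 (h p hp).2.2⟩⟩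

lemma Glob.vac (h : Glob d δ U) (hV : VAC) (σ : Bool) :
    (∀ p ∈ Dt δ 4, P354n.IsConn (P354C.met (U σ)) (con (U σ)) p) ∧ Vac (P354C.met (U σ)) (Dt δ 4) :=
  vac_of_full hV (isOpen_Dt _ _) (h.sm σ) fun p hp => ⟨(h.full σ p hp).1.ne', (h.full σ p hp).2⟩

lemma Glob.vacuum (h : Glob d δ U) (hV : VAC) : IsVacuum (sp δ (coef U)) := fun (c : Ch δ) => by
  rw [tgt_eq]
  have e : ∀ y ∈ c.ξ.target, ∀ a, fderiv ℝ (uv.symm ∘ c.ξ.symm) y a =
      uv.symm (fderiv ℝ c.ξ.symm y a) := fun y hy a => by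
    rw [(uv.symm.hasFDerivAt.comp y (c.der' hy)).fderiv]; rfl
  refine k2.2.1 (uv.symm ∘ c.ξ.symm) _ _ _ _ ⟨c.ξ.open_target, isOpen_Dt _ _, h.met c.σ,
    uv.symm.contDiff.comp_contDiffOn c.sm', fun _ k => c.sub (c.ξ.map_target k),
    fun y hy a b k => ?_, fun y hy a b => ?_⟩ (h.vac hV c.σ).2
  · rw [e y hy, e y hy] at k
    rw [← c.right hy a, uv.symm.injective k, c.right hy]
  · rw [g_eq, bil_coef, e y hy, e y hy]; rfl

/-! ### the initial hypersurface -/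

lemma dir_val {z : X} (h : z ≠ 0) : (dir z).1 = ‖z‖⁻¹ • z := by rw [dir, dif_neg h]

lemma polar_ne (x : ℝ) (w : S2) : Real.exp x • w.1 ≠ 0 :=
  smul_ne_zero (Real.exp_pos x).ne' (ne_zero_of_mem_unit_sphere w)

lemma norm_polar (x : ℝ) (w : S2) : ‖Real.exp x • w.1‖ = Real.exp x := by
  rw [norm_smul, norm_eq_of_mem_sphere w, mul_one, Real.norm_of_nonneg (Real.exp_pos x).le]

lemma jX_polar (x : ℝ) (w : S2) : jX δ (Real.exp x • w.1) = jj δ (x, w) := by
  rw [jX, norm_polar, Real.log_exp]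
  congr 2
  refine Subtype.ext ?_
  rw [dir_val (polar_ne x w), norm_polar, inv_smul_smul₀ (Real.exp_pos x).ne']

lemma jX_embedding : IsEmbedding fun z : ({0}ᶜ : Set X) => jX δ z := by
  refine Function.LeftInverse.isEmbedding
    (f := fun p : Pt => (⟨Real.exp p.2.1 • p.2.2.1, polar_ne _ _⟩ : ({0}ᶜ : Set X)))
    (fun z => Subtype.ext ?_) (by fun_prop) ?_
  · show Real.exp (Real.log ‖z.1‖) • (dir z.1).1 = z.1
    rw [dir_val z.2, Real.exp_log (norm_pos_iff.2 z.2), smul_inv_smul₀ (norm_ne_zero_iff.2 z.2)]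
  · refine continuous_const.prodMk (Continuous.prodMk (Continuous.log (by fun_prop)
      fun z => norm_ne_zero_iff.2 z.2) (continuous_induced_rng.2 ?_))
    exact (Continuous.smul (Continuous.inv₀ (by fun_prop) fun z => norm_ne_zero_iff.2 z.2)
      continuous_subtype_val).congr fun z => (dir_val z.2).symm

lemma mem_jX {p : Pt} : p ∈ jX δ '' {0}ᶜ ↔ p.1 = Real.log δ :=
  ⟨by rintro ⟨_, -, rfl⟩; rfl, fun h => ⟨_, polar_ne p.2.1 p.2.2, by rw [jX_polar, jj, ← h]⟩⟩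

lemma den_dir {z : X} (h : z ≠ 0) : 1 + sg σ * (dir z).1 2 = ‖z‖⁻¹ * (‖z‖ + sg σ * z 2) := by
  have := norm_ne_zero_iff.2 h
  rw [dir_val h, PiLp.smul_apply, smul_eq_mul]
  field_simp

lemma co_jX (hδ : 0 < δ) {z : X} (h : z ≠ 0) :
    co (M := sp δ C) (Ch.tx δ σ) (jX δ z) = (0, Psi σ z) := by
  have := inv_ne_zero (norm_ne_zero_iff.2 h)
  rw [jX, co_tx_jj hδ, sti, den_dir h, dir_val h, Psi, PiLp.smul_apply, PiLp.smul_apply, smul_eq_mul,
    smul_eq_mul, mul_div_mul_left _ _ this, mul_div_mul_left _ _ this]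

lemma pd_zero {J : X → R4} {P : X → X3} {z : X} (e : J =ᶠ[𝓝 z] fun w => (0, P w))
    (hP : DifferentiableAt ℝ P z) (i : Fin 3) : P354I.pd i J z = (0, P354I.pd i P z) := by
  rw [P354I.pd, e.fderiv_eq, ((hasFDerivAt_const (0 : ℝ) z).prodMk hP.hasFDerivAt).fderiv]
  rfl

theorem dev (hV : VAC) (hI : IND) (hJ : INV) : DEV := fun d δ U h => by
  have hd := h.isDN
  refine ⟨hd, isSpacetime hd, connected, inferInstanceAs (SecondCountableTopology Pt), h.vacuum hV,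
    jX_embedding, fun c hc hl => (existsUnique_congr fun _ => and_congr_right' mem_jX).2 (cauchy hd hc hl), fun z hz => ?_⟩
  obtain ⟨σ, k1, -⟩ := exists_in δ (jX δ z)
  have k0 : 1 + sg σ * (dir z).1 2 ≠ 0 := k1.1
  have k2 : ‖z‖ + sg σ * z 2 ≠ 0 := right_ne_zero_of_mul (den_dir hz ▸ k0)
  obtain ⟨-, k3, k4⟩ := (hJ σ).2 z hz k2
  have e : ∀ᶠ w in 𝓝 z, co (M := sp δ (coef U)) (Ch.tx δ σ) (jX δ w) = (0, Psi σ w) :=
    (isOpen_ne.eventually_mem hz).mono fun w hw => co_jX h.pos hw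
  have m : ((0, Psi σ z) : R4) ∈ Dt δ 4 := by
    have := ((sp δ (coef U)).toE (Ch.tx δ σ)).map_source (on_tx.2 k1)
    exact e.self_of_nhds ▸ mem_tgt_tx.1 this
  obtain ⟨f1, f2, -⟩ := h.full σ _ m
  obtain ⟨n1, n2⟩ := hI (U σ) _ f2 f1.ne'
  have e1 := pd_zero e (k3.differentiableAt (by simp))
  have e2 : ∀ i k, P354I.pd i (P354I.pd k fun w => co (M := sp δ (coef U)) (Ch.tx δ σ) (jX δ w)) z =
      (0, P354I.pd i (P354I.pd k (Psi σ)) z) := fun i k => by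
    refine pd_zero ?_ (((k3.fderiv_right (m := 1) (by norm_cast)).clm_apply
      contDiffAt_const).differentiableAt one_ne_zero) i
    filter_upwards [e.eventually_nhds, (k3.of_le (m := 1) (by norm_cast)).eventually (by simp)]
      with w w1 w2
    exact pd_zero w1 (w2.differentiableAt one_ne_zero) k
  refine ⟨Ch.tx δ σ, _, con (U σ), nU (U σ (0, Psi σ z)), rfl, on_tx.2 k1,
    (contDiffAt_const.prodMk k3).congr_of_eventuallyEq e, ?_⟩
  simp only [e.self_of_nhds, e1, e2]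
  refine ⟨g_tx_coef ▸ (h.vac hV σ).1 _ m, g_tx_coef ▸ n1, ?_, fun i k => ?_⟩
  · rw [g_tx, X_tx, uv.apply_symm_apply, bil_X0, neg_lt_zero]
    refine mul_pos (half_pos (hd.om σ _ (uv_mem.2 m))) ?_
    show 0 < (2 * U σ (0, Psi σ z) .O)⁻¹ * (1 + 1) - _ + ((2 * U σ (0, Psi σ z) .O)⁻¹ * (1 + 1) + _)
    have := inv_pos.2 (mul_pos two_pos f1)
    linarith
  · obtain ⟨k5, k6⟩ := k4 d _ (h.ind σ _ m.2) i k
    rw [g_tx_coef, ((h.met σ).lin _ m _).map_add, (n2 _ 0).2.1, zero_add]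
    exact ⟨(n2 _ 0).1, (n2 _ _).2.2.1.trans k5, (n2 _ _).2.2.2.trans k6⟩

end Vale.Agent.P354P
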