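import Vale.Agent.P354P.Dev
import Vale.Agent.P354I.Iface

/-!
Block B6 from its two halves.
-/

open Set

namespace Vale.Agent.P354P

theorem devel (hV : P354C.VAC) (hI : P354J.IND) (hJ : P354J.INV) (hC : COMPAT) : P354I.DEVEL :=
  fun k a A A0 cb hk hW => by
  obtain ⟨μ, hμ, H⟩ := hC k a A A0 cb hk hW
  refine ⟨μ, hμ, fun ε hε η hη δ hδ d U hd hU =>
    ⟨(dev hV hI hJ d δ U (H ε hε η hη δ hδ d U hd hU)).2, sat, ?_⟩⟩
  have b := base_sp (δ := δ) (C := coef U) fun _ _ => ⟨rfl, rfl⟩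
  exact ⟨b.cpt, isOpen_lt (by fun_prop) continuous_const,
    fun w (k : w.1 ^ 2 + w.2 ^ 2 ≤ 1) => k.trans_lt (by norm_num : (1 : ℝ) < 2), b.cover, b.uv, b.dom,
    fun σ x k (k' : _ < (2 : ℝ)) => b.met σ x k (k'.trans (by norm_num : (2 : ℝ) < 4))⟩

end Vale.Agent.P354P
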