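import Vale.Agent.P354P.Dev

/-!
The frame of one chart seen in the other chart.
-/

open scoped ContDiff
open Set Filter Topology

noncomputable section

namespace Vale.Agent.P354P

open Vale.Agent.P354n (R4 cu cv c1 c2)
open Vale.Agent.P354C Vale.Agent.P354C.Ix
open Vale.Agent.P354R (Met Vac Pull)
open Vale.Agent.P354RC (k2)

variable {W : R4 → Ix → ℝ} {y p : R4} {D : Set R4}

/-- the entries of the inverse of the angular part of the differential of `flip` -/
def nc (y : R4) : ℝ := c2 y ^ 2 - c1 y ^ 2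
def ns (y : R4) : ℝ := -2 * c1 y * c2 y

/-- the differential of `flip` -/
def fl (y a : R4) : R4 :=
  (cu a, cv a, (nc y * c1 a + ns y * c2 a) / rr y ^ 2, (ns y * c1 a - nc y * c2 a) / rr y ^ 2)

lemma fderiv_flip (h : rr y ≠ 0) (a : R4) : fderiv ℝ flip y a = fl y a := by
  have e1 : HasFDerivAt c1 _ y := (hasFDerivAt_id (𝕜 := ℝ) y).snd.snd.fst
  have e2 : HasFDerivAt c2 _ y := (hasFDerivAt_id (𝕜 := ℝ) y).snd.snd.snd
  have er := ((hasDerivAt_inv h).comp_hasFDerivAt (h₂ := fun x => x⁻¹) (f := rr) y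
    ((e1.pow 2).add (e2.pow 2)))
  have k : HasFDerivAt flip _ y := (hasFDerivAt_fst.prodMk (hasFDerivAt_snd.fst.prodMk
    ((e1.mul er).prodMk (e2.mul er))))
  rw [k.fderiv]
  refine Prod.ext rfl (Prod.ext rfl (Prod.ext ?_ ?_)) <;>
    simp [fl, nc, ns, c1, c2] <;> field_simp <;> simp only [rr, c1, c2] <;> ring

lemma nc_ns (y : R4) : nc y ^ 2 + ns y ^ 2 = rr y ^ 2 := by simp only [nc, ns, rr]; ring

/-- the transformed lapse, shift and angular frame; the frame is also reflected -/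
def Ft (y : R4) (u : Ix → ℝ) : Ix → ℝ
  | .O => u O
  | .b1 => nc y * u b1 + ns y * u b2
  | .b2 => ns y * u b1 - nc y * u b2
  | .P11 => (nc y * (u P11 * nc y + u P12 * ns y) + ns y * (u P21 * nc y + u P22 * ns y)) / rr y
  | .P12 => (nc y * (u P11 * ns y - u P12 * nc y) + ns y * (u P21 * ns y - u P22 * nc y)) / rr y
  | .P21 => (ns y * (u P11 * nc y + u P12 * ns y) - nc y * (u P21 * nc y + u P22 * ns y)) / rr y
  | .P22 => (ns y * (u P11 * ns y - u P12 * nc y) - nc y * (u P21 * ns y - u P22 * nc y)) / rr y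
  | _ => 0

/-- the transformed fields -/
def Uf (W : R4 → Ix → ℝ) (p : R4) : Ix → ℝ := Ft p (W (flip p))

lemma detP_Ft (h : rr y ≠ 0) (u : Ix → ℝ) : detP (Ft y u) = rr y ^ 2 * detP u := by
  simp only [detP, Ft]
  field_simp
  rw [show rr y ^ 4 = (rr y ^ 2) ^ 2 by ring, ← nc_ns]
  ring

lemma th_Ft (h : rr y ≠ 0) {u : Ix → ℝ} (hu : detP u ≠ 0) (a : R4) : th (Ft y u) a =
    ![th u (fl y a) 0, th u (fl y a) 1, (nc y * th u (fl y a) 2 + ns y * th u (fl y a) 3) / rr y,
      (ns y * th u (fl y a) 2 - nc y * th u (fl y a) 3) / rr y] := by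
  have e := nc_ns y
  simp only [th, detP_Ft h, Ft, fl, cu, cv, c1, c2, Matrix.cons_val_zero, Matrix.cons_val_one,
    Matrix.cons_val]
  congr 3
  · field_simp
    rw [← e]; ring
  · congr 1
    field_simp
    rw [← e]; ring

lemma met_Uf (h : rr p ≠ 0) (hu : detP (W (flip p)) ≠ 0) (a b : R4) :
    met (Uf W) p a b = met W (flip p) (fderiv ℝ flip p a) (fderiv ℝ flip p b) := by
  have e := nc_ns p
  simp only [met, Uf, th_Ft h hu, fderiv_flip h, eta, Matrix.cons_val_zero, Matrix.cons_val_one,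
    Matrix.cons_val, Ft]
  field_simp
  rw [← e]; ring

lemma met_Met (hs : SmU W D) (h : ∀ p ∈ D, W p O ≠ 0 ∧ detP (W p) ≠ 0) : Met (met W) D where
  lin y _ a := ⟨fun b c => by
      simp only [met, eta, th, Matrix.cons_val_zero, Matrix.cons_val_one, Matrix.cons_val,
        Prod.fst_add, Prod.snd_add]; ring,
    fun k b => by
      simp only [met, eta, th, Matrix.cons_val_zero, Matrix.cons_val_one, Matrix.cons_val,
        Prod.smul_fst, Prod.smul_snd, smul_eq_mul]; ring⟩
  symm y _ a b := by simp only [met, eta]; ring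
  nondeg y hy a H := by
    obtain ⟨k0, k1⟩ := h y hy
    have k2 := H (1, -1, 0, 0)
    have k3 := H (1, 1, W y b1, W y b2)
    have k4 := H a
    simp [met, eta, th, k0] at k2 k3
    have e1 : a.1 = 0 := by linarith
    have e2 : a.2.1 = 0 := by linarith
    simp [met, eta, th, k0, e1, e2] at k4
    have e3 := (div_eq_zero_iff.1 (mul_self_add_mul_self_eq_zero.1 k4).1).resolve_right k1
    have e4 := (div_eq_zero_iff.1 (mul_self_add_mul_self_eq_zero.1 k4).2).resolve_right k1
    refine Prod.ext e1 (Prod.ext e2 (Prod.ext (mul_left_cancel₀ k1 ?_) (mul_left_cancel₀ k1 ?_)))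
    · simp only [detP, Prod.snd_zero, Prod.fst_zero]
      linear_combination W y P11 * e3 + W y P21 * e4
    · simp only [detP, Prod.snd_zero]
      linear_combination W y P12 * e3 + W y P22 * e4
  smooth a b := by
    have k : ∀ i, ContDiffOn ℝ ∞ (fun z => W z i) D := hs
    simp only [met, eta, th, detP, Matrix.cons_val_zero, Matrix.cons_val_one, Matrix.cons_val]
    fun_prop (disch := exact fun p hp => (h p hp).2)

lemma Uf_smooth {A : Set R4} (hs : SmU W D) (h0 : ∀ p ∈ A, rr p ≠ 0) (hm : MapsTo flip A D) (i : Ix) :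
    ContDiffOn ℝ ∞ (fun z => Uf W z i) A := by
  have k : ∀ i, ContDiffOn ℝ ∞ (fun z => W (flip z) i) A := fun i =>
    (hs i).comp (fun p hp => (flip_smooth (h0 p hp)).contDiffWithinAt) hm
  have k1 : ContDiffOn ℝ ∞ nc A := by unfold nc c1 c2; fun_prop
  have k2 : ContDiffOn ℝ ∞ ns A := by unfold ns c1 c2; fun_prop
  have k3 := rr_smooth.contDiffOn (s := A)
  obtain ⟨V, hV⟩ : ∃ V : R4 → Ix → ℝ, V = fun z => W (flip z) := ⟨_, rfl⟩
  have e : ∀ z, W (flip z) = V z := fun z => by rw [hV]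
  simp only [Uf, e] at k ⊢
  cases i <;> simp only [Ft] <;> fun_prop (disch := exact h0)

/-- the derivative along `n` -/
lemma fd_n {f : R4 → ℝ} {c : ℝ} (hf : DifferentiableAt ℝ f p)
    (h : HasDerivAt (fun t : ℝ => f (p.1 + t, p.2.1 - t, p.2.2)) c 0) :
    fderiv ℝ f p (1, -1, 0, 0) = c := by
  rw [← hf.lineDeriv_eq_fderiv]
  refine HasLineDerivAt.lineDeriv (h.congr_of_eventuallyEq (Eventually.of_forall fun t => ?_))
  simp only [Prod.smul_mk, smul_eq_mul, mul_one, mul_neg, mul_zero]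
  exact congrArg f (Prod.ext rfl (Prod.ext rfl (add_zero _)))

lemma has_n {f : R4 → ℝ} {t : ℝ} (hf : DifferentiableAt ℝ f (p.1 + t, p.2.1 - t, p.2.2)) :
    HasDerivAt (fun t : ℝ => f (p.1 + t, p.2.1 - t, p.2.2))
      (fderiv ℝ f (p.1 + t, p.2.1 - t, p.2.2) (1, -1, 0, 0)) t :=
  hf.hasFDerivAt.comp_hasDerivAt t (((hasDerivAt_id t).const_add p.1).prodMk
    (((hasDerivAt_id t).const_sub p.2.1).prodMk (hasDerivAt_const t p.2.2)))

lemma dfr_Uf (hW : ∀ i, DifferentiableAt ℝ (fun z => W z i) (flip p))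
    (hU : ∀ i, DifferentiableAt ℝ (fun z => Uf W z i) p) (i : Ix) :
    dfr (Uf W) p 1 i = Ft p (dfr W (flip p) 1) i := by
  have k : ∀ j, HasDerivAt (fun t : ℝ => W (flip (p.1 + t, p.2.1 - t, p.2.2)) j)
      (dfr W (flip p) 1 j) 0 := fun j => by
    have := has_n (p := flip p) (t := 0) (f := fun z => W z j) (by simpa using hW j)
    simp only [add_zero, sub_zero] at this
    exact this
  refine fd_n (hU i) ?_
  show HasDerivAt (fun t : ℝ => Ft p (W (flip (p.1 + t, p.2.1 - t, p.2.2))) i) _ 0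
  cases i <;> simp only [Ft] <;> first
    | exact hasDerivAt_const _ _
    | exact k _
    | exact ((k _).const_mul _).add ((k _).const_mul _)
    | exact ((k _).const_mul _).sub ((k _).const_mul _)
    | exact ((((k _).mul_const _).add ((k _).mul_const _)).const_mul _ |>.add
        ((((k _).mul_const _).add ((k _).mul_const _)).const_mul _)).div_const _
    | exact ((((k _).mul_const _).sub ((k _).mul_const _)).const_mul _ |>.add
        ((((k _).mul_const _).sub ((k _).mul_const _)).const_mul _)).div_const _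
    | exact ((((k _).mul_const _).add ((k _).mul_const _)).const_mul _ |>.sub
        ((((k _).mul_const _).add ((k _).mul_const _)).const_mul _)).div_const _
    | exact ((((k _).mul_const _).sub ((k _).mul_const _)).const_mul _ |>.sub
        ((((k _).mul_const _).sub ((k _).mul_const _)).const_mul _)).div_const _

lemma full_sym {u : Ix → ℝ} {du : Fin 4 → Ix → ℝ} (h : Full u du) : u Y12 = u Y21 := by
  have k0 := h.tor 2 3 0
  have k1 := h.tor 2 3 1
  simp [torC, Gam, E, dEof, Fin.sum_univ_four] at k0 k1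
  linarith

lemma br_Uf (hW : ∀ i, DifferentiableAt ℝ (fun z => W z i) (flip p))
    (hU : ∀ i, DifferentiableAt ℝ (fun z => Uf W z i) p)
    (hF : Full (W (flip p)) (dfr W (flip p))) :
    br (Uf W p) (dfr (Uf W) p) 1 2 3 = br (Uf W p) (dfr (Uf W) p) 1 3 2 := by
  have e0 := full_sym hF
  have e1 := hF.eqN P11
  have e2 := hF.eqN P12
  have e3 := hF.eqN P21
  have e4 := hF.eqN P22
  simp [resN, cN, angS, angN, linS, linN, quadS, quadN] at e1 e2 e3 e4
  simp only [br, th, vec, dEof, Matrix.cons_val_zero, Matrix.cons_val_one, Matrix.cons_val,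
    dfr_Uf hW hU, Uf, Ft, sub_zero, add_zero, zero_div, mul_zero]
  congr 1
  rw [eq_neg_of_add_eq_zero_left e1, eq_neg_of_add_eq_zero_left e2, eq_neg_of_add_eq_zero_left e3,
    eq_neg_of_add_eq_zero_left e4, e0]
  ring

/-- the solution of the other chart in this chart -/
theorem flipped (hV : VAC) (hC : CONV) {A : Set R4} (hA : IsOpen A) (hD : IsOpen D) (hs : SmU W D)
    (h0 : ∀ p ∈ A, rr p ≠ 0) (hm : MapsTo flip A D)
    (h : ∀ p ∈ D, W p O ≠ 0 ∧ detP (W p) ≠ 0 ∧ Full (W p) (dfr W p)) :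
    Pull flip (met (L2 (Uf W))) A (met W) D ∧ SmU (L2 (Uf W)) A ∧
      ∀ p ∈ A, Full (L2 (Uf W) p) (dfr (L2 (Uf W)) p) := by
  have s := Uf_smooth hs h0 hm
  obtain ⟨-, k1, k3, -, k4⟩ := hC (Uf W) A hA (fun i _ => s i) fun p hp =>
    ⟨by rw [Uf, detP_Ft (h0 p hp)]; exact mul_ne_zero (pow_ne_zero 2 (h0 p hp)) (h _ (hm hp)).2.1,
      (h _ (hm hp)).1, br_Uf
        (fun i => ((hs i).contDiffAt (hD.mem_nhds (hm hp))).differentiableAt (by simp))
        (fun i => ((s i).contDiffAt (hA.mem_nhds hp)).differentiableAt (by simp))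
        (h _ (hm hp)).2.2⟩
  have P : Pull flip (met (Uf W)) A (met W) D :=
    ⟨hA, hD, met_Met hs fun p hp => ⟨(h p hp).1, (h p hp).2.1⟩,
      fun p hp => (flip_smooth (h0 p hp)).contDiffWithinAt, hm, fun p hp a b e => ?_,
      fun p hp => met_Uf (h0 p hp) (h _ (hm hp)).2.1⟩
  · obtain ⟨G, hG⟩ := k2.2.1 _ _ _ _ _ P (vac_of_full hV hD hs h).2
    exact ⟨k3 ▸ P, k1, k4 G hG⟩
  have r := h0 p hp
  have q := nc_ns p
  simp only [fderiv_flip r, fl, Prod.mk.injEq, div_left_inj' (pow_ne_zero 2 r)] at e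
  obtain ⟨e1, e2, e3, e4⟩ := e
  refine Prod.ext e1 (Prod.ext e2 (Prod.ext (mul_left_cancel₀ (pow_ne_zero 2 r) ?_)
    (mul_left_cancel₀ (pow_ne_zero 2 r) ?_)))
  · show _ * c1 a = _ * c1 b
    linear_combination nc p * e3 + ns p * e4 - (c1 a - c1 b) * q
  · show _ * c2 a = _ * c2 b
    linear_combination ns p * e3 - nc p * e4 - (c2 a - c2 b) * q

end Vale.Agent.P354P
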