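import Vale.Agent.P354P.Flip
import Vale.Agent.P354JK.Main

/-!
The two solutions agree on the initial slice.
-/

open scoped ContDiff
open Set Filter Topology

noncomputable section

namespace Vale.Agent.P354P

open Vale.Agent.P354n (R4 cu cv c1 c2 IsConn)
open Vale.Agent.P354C Vale.Agent.P354C.Ix
open Vale.Agent.P354H (X3 e sl)
open Vale.Agent.P354I (X Dat)
open Vale.Agent.P354J
open Vale.Agent.P354JK (DP phi_smooth pb_apply pb_lin hf_lin Kf_lin)
open Vale.Agent.P354R (Met Vac Pull chr)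
open Vale.Agent.P354RC (k2)

variable {W V : R4 → Ix → ℝ} {p : R4} {z : X3} {A D : Set R4} {σ : Bool}

/-- the change of the chart on the slice and its differential -/
def fz (z : X3) : X3 := (flip (0, z)).2
def dz (z a : X3) : X3 := (fl (0, z) (0, a)).2

lemma phi_fz (h : rr (0, z) ≠ 0) : Phi (!σ) (fz z) = Phi σ z := by
  have k := P354E.st_sti (!σ) ((mem_src_not (σ := σ) (y := (0, z))).2 h)
  rw [sti_not h] at k
  exact congrArg (fun w : P354E.S2 => Real.exp z.1 • w.1) k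

lemma DP_fz (h : rr (0, z) ≠ 0) (a : X3) : DP (!σ) (fz z) (dz z a) = DP σ z a := by
  have k1 := (((flip_smooth (y := (0, z)) h).differentiableAt (by simp)).hasFDerivAt.comp z
    ((hasFDerivAt_const (0 : ℝ) z).prodMk (hasFDerivAt_id z))).snd
  have k2 := ((phi_smooth (!σ)).differentiable (by simp) (fz z)).hasFDerivAt.comp z k1
  have c : Continuous fun w : X3 => rr (0, w) := rr_smooth.continuous.comp (by fun_prop)
  have k3 : Phi σ =ᶠ[𝓝 z] Phi (!σ) ∘ fz :=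
    (c.continuousAt.eventually_ne h).mono fun w hw => (phi_fz hw).symm
  rw [DP, DP, (k2.congr_of_eventuallyEq k3).fderiv, dz, ← fderiv_flip h]
  rfl

lemma ind_fz (h : rr (0, z) ≠ 0) {u : Ix → ℝ} {F G : X → M3}
    (hu : Ind u (pb (!σ) F (fz z)) (pb (!σ) G (fz z))) (i j : Fin 3) :
    hf u (dz z (e i)) (dz z (e j)) = pb σ F z i j ∧ Kf u (dz z (e i)) (dz z (e j)) = pb σ G z i j := by
  rw [hf_lin, Kf_lin]
  simp only [fun a b => (hu a b).1, fun a b => (hu a b).2, pb_lin, DP_fz h, phi_fz h, pb_apply σ,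
    and_self]

lemma conn_chr {g : R4 → R4 → R4 → ℝ} {G : R4 → R4 → R4 → R4} (h : IsConn g G p) (a b c : R4) :
    chr g p a b c = g p (G p a b) c := by
  rw [chr, ← h a b c]; ring

lemma fl_nU (h : rr p ≠ 0) (u : Ix → ℝ) : fl p (nU (Ft p u)) = nU u := by
  have q := nc_ns p
  have k : ∀ u, nU u = ((2 * u O)⁻¹ * 2, 0, (2 * u O)⁻¹ * u b1, (2 * u O)⁻¹ * u b2) := fun u => by
    simp [nU, fr, vec, E, one_add_one_eq_two]
  simp only [k, fl, Ft, cu, cv, c1, c2, Prod.mk.injEq, true_and]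
  constructor <;> rw [div_eq_iff (pow_ne_zero 2 h), ← q] <;> ring

lemma Kf_flip (hI : IND) (P : Pull flip (met V) A (met W) D) (hp : (0, z) ∈ A) (h : rr (0, z) ≠ 0)
    (c : IsConn (met V) (con V) (0, z)) (c' : IsConn (met W) (con W) (0, fz z))
    (n : nU (V (0, z)) = nU (Ft (0, z) (W (0, fz z))))
    (k : detP (V (0, z)) ≠ 0 ∧ V (0, z) O ≠ 0) (k' : detP (W (0, fz z)) ≠ 0 ∧ W (0, fz z) O ≠ 0)
    (a b : X3) : hf (V (0, z)) a b = hf (W (0, fz z)) (dz z a) (dz z b) ∧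
      Kf (V (0, z)) a b = Kf (W (0, fz z)) (dz z a) (dz z b) := by
  have i := (hI V _ k.1 k.2).2
  have i' := (hI W _ k'.1 k'.2).2
  have f : ∀ a, fderiv ℝ flip (0, z) (0, a) = (0, dz z a) := fun a => fderiv_flip h _
  have q := k2.2.2.2.2 _ _ _ _ _ P _ hp (0, a) (0, b) (nU (V (0, z)))
  have s : (fderiv ℝ (fun y => fderiv ℝ flip y (0, b)) (0, z) (0, a)).1 = 0 := by
    by_cases hd : DifferentiableAt ℝ (fun y => fderiv ℝ flip y (0, b)) (0, z)
    · have := (hasFDerivAt_const (𝕜 := ℝ) (0 : ℝ) ((0, z) : R4)).congr_of_eventuallyEq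
        (f₁ := fun y => (fderiv ℝ flip y (0, b)).1)
        ((rr_smooth.continuous.continuousAt.eventually_ne h).mono fun y hy => by
          simp only [fderiv_flip hy]; rfl)
      exact DFunLike.congr_fun (hd.hasFDerivAt.fst.unique this) (0, a)
    · rw [fderiv_zero_of_not_differentiableAt hd]; rfl
  refine ⟨by rw [← (i a b).2.2.1, ← (i' _ _).2.2.1, P.eq _ hp, f, f]; rfl, ?_⟩
  rw [f, f, fderiv_flip h, conn_chr c, show flip (0, z) = (0, fz z) from rfl, conn_chr c',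
    ← Prod.mk.eta (p := fderiv ℝ _ (0, z) (0, a)), s, n, fl_nU h, (i' _ 0).1, add_zero, ← n] at q
  rw [← (i a b).2.2.2, ← (i' _ _).2.2.2, (k2.1 _ _ _ _ _ P).symm _ hp, q,
    P.met.symm (0, fz z) (P.maps hp)]

lemma Full.constr {u : Ix → ℝ} {du : Fin 4 → Ix → ℝ} (h : Full u du) : Constr u du :=
  ⟨fun _ _ _ => by simp only [h.tor, mul_zero, Finset.sum_const_zero],
    fun _ => by simp only [h.dO, sub_self, mul_zero, Finset.sum_const_zero],
    fun _ _ _ _ => by simp only [h.cur, mul_zero, Finset.sum_const_zero]⟩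

lemma Ft_pos (h : 0 < rr p) {u : Ix → ℝ} (h1 : 0 < u P11) (h2 : 0 < detP u) (h3 : u P12 = u P21) :
    0 < Ft p u P11 ∧ 0 < detP (Ft p u) ∧ Ft p u P12 = Ft p u P21 := by
  refine ⟨div_pos ((mul_pos_iff_of_pos_left h1).1 ?_) h, by rw [detP_Ft h.ne']; positivity,
    by simp only [Ft, h3]; ring⟩
  have q := nc_ns p
  have e : ∀ c s : ℝ, u P11 * (c * (u P11 * c + u P12 * s) + s * (u P21 * c + u P22 * s)) =
      (c * u P11 + s * u P12) ^ 2 + s ^ 2 * detP u := fun c s => by rw [detP, ← h3]; ring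
  rw [e]
  rcases eq_or_ne (ns p) 0 with k | k
  · have : nc p ≠ 0 := fun k' => (pow_pos h 2).ne' (by rw [← q, k, k']; ring)
    rw [k, zero_mul, add_zero]
    positivity
  · positivity

/-- the annulus -/
def An (δ : ℝ) : Set R4 := {p | -δ < p.1 ∧ 4 / 25 < rr p ∧ rr p < 25 / 4}

lemma isOpen_An (δ : ℝ) : IsOpen (An δ) :=
  IsOpen.and (isOpen_lt continuous_const continuous_fst) (IsOpen.and
    (isOpen_lt continuous_const rr_smooth.continuous) (isOpen_lt rr_smooth.continuous continuous_const))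

lemma An_pos {δ : ℝ} (h : p ∈ An δ) : 0 < rr p := lt_trans (by norm_num) h.2.1

lemma maps_An (δ : ℝ) : MapsTo flip (An δ) (An δ) := fun p h =>
  ⟨h.1, by rw [rr_flip, lt_inv_comm₀ (by norm_num) (An_pos h)]; linarith [h.2.2],
    by rw [rr_flip, inv_lt_comm₀ (An_pos h) (by norm_num)]; linarith [h.2.1]⟩

theorem slice_eq (hV : VAC) (hC : CONV) (h1 : SL1) (h2 : SL2) (h3 : DSL) (h4 : UQ) (h5 : FU)
    (hI : IND) {d : Dat} (hd : PDy d) {δ : ℝ} {U : Bool → R4 → Ix → ℝ}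
    (hs : ∀ σ, SmU (U σ) (An δ)) (hi : ∀ σ z, (0, z) ∈ An δ → U σ (0, z) = Ud d σ z)
    (hf : ∀ σ, ∀ p ∈ An δ, U σ p O ≠ 0 ∧ detP (U σ p) ≠ 0 ∧ Full (U σ p) (dfr (U σ) p))
    (hz : (0, z) ∈ An δ) : U σ (0, z) = L2 (Uf (U (!σ))) (0, z) := by
  have o := isOpen_An δ
  obtain ⟨P, s, F⟩ := flipped hV hC o o (hs (!σ)) (fun p hp => (An_pos hp).ne') (maps_An δ) (hf (!σ))
  have nz : ∀ p ∈ An δ, L2 (Uf (U (!σ))) p O ≠ 0 ∧ detP (L2 (Uf (U (!σ))) p) ≠ 0 := fun p hp =>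
    ⟨(hf _ _ (maps_An δ hp)).1, (detP_Ft (An_pos hp).ne' _).trans_ne
      (mul_ne_zero (pow_ne_zero 2 (An_pos hp).ne') (hf _ _ (maps_An δ hp)).2.1)⟩
  have c := (vac_of_full hV o s fun p hp => ⟨(nz p hp).1, (nz p hp).2, F p hp⟩).1
  have c' := (vac_of_full hV o (hs (!σ)) (hf (!σ))).1
  have ds : ∀ {W : R4 → Ix → ℝ}, SmU W (An δ) → ∀ y, (0, y) ∈ An δ → Full (W (0, y)) (dfr W (0, y)) →
      Constr (sl W 0 y) (dsl (sl W 0) y) := fun k y hy k' =>
    (h3 _ 0 y fun i => ((k i).contDiffAt (o.mem_nhds hy)).differentiableAt (by simp)).1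
      (Full.constr k')
  refine h4 (sl (U σ) 0) (sl (L2 (Uf (U (!σ)))) 0) {y | (0, y) ∈ An δ}
    (o.preimage (by fun_prop)) (fun y hy => ?_) z hz
  have hy' : (0, fz y) ∈ An δ := maps_An δ hy
  have r := An_pos hy
  obtain ⟨a1, a2, a3, a4, a5, -⟩ := (h1 _ _ (h2 d σ hd).1).2 y
  obtain ⟨b1, b2, b3, b4, b5, -⟩ := (h1 _ _ (h2 d (!σ) hd).1).2 (fz y)
  have k := Kf_flip hI P hy r.ne' (c _ hy) (c' _ hy') rfl (nz _ hy).symm
    ⟨(hf _ _ hy').2.1, (hf _ _ hy').1⟩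
  rw [hi _ _ hy'] at k
  have q := ind_fz r.ne' b5
  have u : sl (U σ) 0 y = Ud d σ y := hi σ y hy
  have v : Uf (U (!σ)) (0, y) = Ft (0, y) (Ud d (!σ) (fz y)) := congrArg _ (hi _ _ hy')
  obtain ⟨t1, t2, t3⟩ := Ft_pos r b2 b3 b4
  rw [← Ud, ← v] at t1 t2 t3
  refine ⟨(hf σ _ hy).2.1, (hf σ _ hy).1, ds (hs σ) y hy (hf σ _ hy).2.2, ds s y hy (F _ hy), ?_,
    fun a b => ?_⟩
  · rw [u]
    exact h5 _ _ a1 a2 a3 a4 ((congrFun v O).symm ▸ b1 : 0 < Uf (U (!σ)) (0, y) O) t1 t2 t3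
      fun a b => (a5 a b).1.trans ((k _ _).1.trans (q a b).1).symm
  · rw [u]
    exact (a5 a b).2.trans ((k _ _).2.trans (q a b).2).symm

end Vale.Agent.P354P
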