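import Vale.Agent.P354P.Defs

/-!
`sp δ C` is a connected smooth spacetime; its future timelike curves.
-/

open scoped ContDiff
open Set Filter Topology

noncomputable section

namespace Vale.Agent.P354P

open Vale.Agent.P354n (R4 Spc On tgt co inv cu cv c1 c2 h1 h2 form IsSmooth IsSpacetime
  IsFutureCurve mink)
open Vale.Agent.P354E (S2 st sti src sg st_src sti_st st_sti isOpen_src st_0 st_1 st_2 sg_sq)

variable {δ m t : ℝ} {C : Bool → ℕ → R4 → ℝ} {c c' : Ch δ} {σ σ' : Bool} {y : R4} {p : Pt}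
  {I : Set ℝ} {a : ℝ → Pt}

/-! ### algebra -/

lemma bil_self (D : ℕ → R4 → ℝ) (x w : R4) : bil D x w w = form D x w := by
  simp only [bil, form]; ring

lemma bil_polar (D : ℕ → R4 → ℝ) (x w z : R4) :
    2 * bil D x w z = form D x (w + z) - form D x w - form D x z := by
  simp only [bil, form, h1, h2, cu, cv, c1, c2, Prod.fst_add, Prod.snd_add]; ring

lemma bil_X0 (D : ℕ → R4 → ℝ) (x w : R4) : bil D x w (X0 D x) = -(D 3 x / 2 * (cu w + cv w)) := by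
  simp only [bil, X0, h1, h2, cu, cv, c1, c2]; ring

lemma ang_nonneg {A B D s r : ℝ} (h0 : 0 < A) (h : B ^ 2 < 4 * (A * D)) :
    0 ≤ A * s ^ 2 + B * s * r + D * r ^ 2 ∧
      (A * s ^ 2 + B * s * r + D * r ^ 2 ≤ 0 → s = 0 ∧ r = 0) := by
  have e : 4 * A * (A * s ^ 2 + B * s * r + D * r ^ 2) =
      (2 * A * s + B * r) ^ 2 + (4 * (A * D) - B ^ 2) * r ^ 2 := by ring
  have k : 0 ≤ (4 * (A * D) - B ^ 2) * r ^ 2 := mul_nonneg (by linarith) (sq_nonneg _)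
  refine ⟨nonneg_of_mul_nonneg_right (e ▸ add_nonneg (sq_nonneg _) k |>.trans_eq rfl)
    (by linarith) |>.trans_eq rfl, fun h1 => ?_⟩
  have k1 : r ^ 2 ≤ 0 := by
    by_contra! k2
    nlinarith [mul_pos (sub_pos.2 h) k2, sq_nonneg (2 * A * s + B * r)]
  have r0 : r = 0 := by nlinarith [sq_nonneg r]
  subst r0
  refine ⟨?_, rfl⟩
  by_contra k2
  nlinarith [mul_pos h0 (sq_pos_of_ne_zero k2)]

/-- the null coordinates increase along future causal vectors -/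
lemma IsDN.pos_uv (h : IsDN δ C) (hy : y ∈ Dm δ) {w : R4} (h1 : form (C σ) y w < 0)
    (h2 : 0 < cu w + cv w) : 0 < cu w ∧ 0 < cv w := by
  have k := (ang_nonneg (s := P354n.h1 (C σ) y w) (r := P354n.h2 (C σ) y w) (h.g0 σ y hy)
    (h.det σ y hy)).1
  have k1 := h.om σ y hy
  have k2 : 0 < cu w * cv w := by
    by_contra! k2
    simp only [form] at h1
    nlinarith
  rcases mul_pos_iff.1 k2 with k | k
  · exact k
  · linarith [k.1, k.2]

/-! ### charts -/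

lemma on_iff : On (M := sp δ C) c p ↔ p.2.2 ∈ src c.σ ∧ bs δ c.σ p ∈ c.ξ.source := Iff.rfl
lemma co_eq : co (M := sp δ C) c p = c.ξ (bs δ c.σ p) := rfl
lemma inv_eq : inv (M := sp δ C) c y = sb δ c.σ (c.ξ.symm y) := rfl
lemma g_eq (w z : R4) : (sp δ C).g c y w z =
    bil (C c.σ) (c.ξ.symm y) (fderiv ℝ c.ξ.symm y w) (fderiv ℝ c.ξ.symm y z) := rfl
lemma X_eq : (sp δ C).X c y = fderiv ℝ c.ξ (c.ξ.symm y) (X0 (C c.σ) (c.ξ.symm y)) := rfl

lemma tgt_eq : tgt (M := sp δ C) c = c.ξ.target :=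
  Subset.antisymm (fun _ h => h.1) fun _ h => ⟨h, (c.sub (c.ξ.map_target h)).1⟩

lemma on_id : On (M := sp δ C) (Ch.id δ σ) p ↔ In δ σ p :=
  ⟨fun h => ⟨h.1, h.2.2⟩, fun h => ⟨h.1, bs_mem δ σ p h.2⟩⟩

lemma tgt_id : tgt (M := sp δ C) (Ch.id δ σ) = Dm δ := tgt_eq

lemma g_id (w z : R4) : (sp δ C).g (Ch.id δ σ) y w z = bil (C σ) y w z := by
  show bil (C σ) y (fderiv ℝ id y w) (fderiv ℝ id y z) = _
  rw [fderiv_id]; rfl

lemma X_id : (sp δ C).X (Ch.id δ σ) y = X0 (C σ) y := by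
  show fderiv ℝ id y (X0 (C σ) y) = _
  rw [fderiv_id]; rfl

lemma on_tx : On (M := sp δ C) (Ch.tx δ σ) p ↔ In δ σ p :=
  ⟨fun h => ⟨h.1, h.2.2.2⟩, fun h => ⟨h.1, trivial, bs_mem δ σ p h.2⟩⟩

lemma mem_tgt_tx : y ∈ tgt (M := sp δ C) (Ch.tx δ σ) ↔ -δ < y.1 ∧ rr y < 4 := by
  rw [tgt_eq]
  have e : (cu (uv y) + cv (uv y)) / 2 = y.1 := by
    show (y.1 - y.2.1 + (y.1 + y.2.1)) / 2 = _
    ring
  exact ⟨fun h => ⟨e ▸ h.2.1, h.2.2⟩, fun h => ⟨trivial, e.symm ▸ h.1, h.2⟩⟩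

lemma co_tx : co (M := sp δ C) (Ch.tx δ σ) p = (Real.exp p.1 - δ, p.2.1, sti σ p.2.2) := by
  show ((Real.exp p.1 - δ - p.2.1 + (Real.exp p.1 - δ + p.2.1)) / 2,
    (Real.exp p.1 - δ + p.2.1 - (Real.exp p.1 - δ - p.2.1)) / 2, sti σ p.2.2) = _
  congr 2 <;> ring

lemma g_tx (w z : R4) : (sp δ C).g (Ch.tx δ σ) y w z = bil (C σ) (uv y) (uv w) (uv z) := by
  show bil (C σ) (uv y) (fderiv ℝ uv y w) (fderiv ℝ uv y z) = _
  rw [uv.fderiv]; rfl

lemma X_tx : (sp δ C).X (Ch.tx δ σ) y = uv.symm (X0 (C σ) (uv y)) := by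
  show fderiv ℝ uv.symm (uv y) (X0 (C σ) (uv y)) = _
  rw [uv.symm.fderiv]; rfl

lemma co_tx_jj (hδ : 0 < δ) (z : ℝ × S2) :
    co (M := sp δ C) (Ch.tx δ σ) (jj δ z) = (0, z.1, sti σ z.2) := by
  rw [co_tx, jj, Real.exp_log hδ, sub_self]

lemma In.of_on (h : On (M := sp δ C) c p) : In δ c.σ p := ⟨h.1, (c.sub h.2).2⟩

lemma In.mem (h : In δ σ p) : bs δ σ p ∈ Dm δ := bs_mem δ σ p h.2

lemma exists_in (δ : ℝ) (p : Pt) : ∃ σ, In δ σ p ∧ rr (bs δ σ p) ≤ 1 :=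
  let ⟨σ, k1, k2⟩ := exists_disc δ p
  ⟨σ, ⟨k1, by linarith⟩, k2⟩

lemma sb_bs (h : p.2.2 ∈ src σ) : sb δ σ (bs δ σ p) = p := (base δ σ).left_inv h

lemma bs_sb (h : y ∈ Dm δ) : bs δ σ (sb δ σ y) = y := (base δ σ).right_inv h.1

lemma in_sb (h : y ∈ Dm δ) : In δ σ (sb δ σ y) := ⟨st_src _ _, by rw [bs_sb h]; exact h.2⟩

lemma Ch.smAt (c : Ch δ) (h : y ∈ c.ξ.source) : ContDiffAt ℝ ∞ c.ξ y :=
  c.sm.contDiffAt (c.ξ.open_source.mem_nhds h)

lemma Ch.smAt' (c : Ch δ) (h : y ∈ c.ξ.target) : ContDiffAt ℝ ∞ c.ξ.symm y :=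
  c.sm'.contDiffAt (c.ξ.open_target.mem_nhds h)

lemma Ch.der (c : Ch δ) (h : y ∈ c.ξ.source) : HasFDerivAt c.ξ (fderiv ℝ c.ξ y) y :=
  ((c.smAt h).differentiableAt (by simp)).hasFDerivAt

lemma Ch.der' (c : Ch δ) (h : y ∈ c.ξ.target) : HasFDerivAt c.ξ.symm (fderiv ℝ c.ξ.symm y) y :=
  ((c.smAt' h).differentiableAt (by simp)).hasFDerivAt

lemma Ch.left (c : Ch δ) (h : y ∈ c.ξ.source) (w : R4) :
    fderiv ℝ c.ξ.symm (c.ξ y) (fderiv ℝ c.ξ y w) = w :=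
  DFunLike.congr_fun (((c.der' (c.ξ.map_source h)).comp y (c.der h)).unique
    ((hasFDerivAt_id y).congr_of_eventuallyEq (c.ξ.eventually_left_inverse h))) w

lemma Ch.right (c : Ch δ) (h : y ∈ c.ξ.target) (w : R4) :
    fderiv ℝ c.ξ (c.ξ.symm y) (fderiv ℝ c.ξ.symm y w) = w :=
  DFunLike.congr_fun (((c.der (c.ξ.map_target h)).comp y (c.der' h)).unique
    ((hasFDerivAt_id y).congr_of_eventuallyEq (c.ξ.eventually_right_inverse h))) w

/-! ### the change of the stereographic chart -/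

lemma rr_nonneg (y : R4) : 0 ≤ rr y := by unfold rr; positivity

lemma rr_smooth : ContDiff ℝ ∞ rr := by unfold rr c1 c2; fun_prop

lemma flip_smooth (h : rr y ≠ 0) : ContDiffAt ℝ ∞ flip y :=
  ContDiffAt.prodMk (by unfold cu; fun_prop) (ContDiffAt.prodMk (by unfold cv; fun_prop)
    (ContDiffAt.prodMk (ContDiffAt.div (by unfold c1; fun_prop) rr_smooth.contDiffAt h)
      (ContDiffAt.div (by unfold c2; fun_prop) rr_smooth.contDiffAt h)))

lemma rr_flip (y : R4) : rr (flip y) = (rr y)⁻¹ := by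
  rcases eq_or_ne (rr y) 0 with h | h
  · simp only [rr, flip, c1, c2] at h ⊢
    simp [h]
  · show (c1 y / rr y) ^ 2 + (c2 y / rr y) ^ 2 = _
    field_simp
    rfl

lemma flip_flip (h : rr y ≠ 0) : flip (flip y) = y := by
  refine Prod.ext rfl (Prod.ext rfl (Prod.ext ?_ ?_))
  · show c1 y / rr y / rr (flip y) = c1 y
    rw [rr_flip]; field_simp
  · show c2 y / rr y / rr (flip y) = c2 y
    rw [rr_flip]; field_simp

lemma sg_not (σ : Bool) : sg (!σ) = -sg σ := by cases σ <;> simp [sg]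

lemma den_not (σ : Bool) (y : R4) :
    1 + sg (!σ) * (st σ y.2.2).1 2 = 2 * rr y / (1 + rr y) := by
  have h := rr_nonneg y
  rw [st_2, sg_not, ← mul_assoc, neg_mul, sg_sq]
  simp only [rr, c1, c2] at h ⊢
  field_simp
  ring

lemma mem_src_not : st σ y.2.2 ∈ src (!σ) ↔ rr y ≠ 0 := by
  have h := rr_nonneg y
  show 1 + sg (!σ) * (st σ y.2.2).1 2 ≠ 0 ↔ _
  rw [den_not]
  exact ⟨fun k e => k (by simp [e]), fun k => by positivity⟩

lemma sti_not (h : rr y ≠ 0) : sti (!σ) (st σ y.2.2) = (flip y).2.2 := by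
  have h' := rr_nonneg y
  unfold sti
  rw [den_not, st_0, st_1, add_assoc]
  refine Prod.ext ?_ ?_
  · show 2 * c1 y / (1 + rr y) / _ = c1 y / rr y
    field_simp
  · show 2 * c2 y / (1 + rr y) / _ = c2 y / rr y
    field_simp

lemma bs_not (hy : -δ < (cu y + cv y) / 2) (h : rr y ≠ 0) : bs δ (!σ) (sb δ σ y) = flip y := by
  have k := (base δ σ).right_inv hy
  have k1 := congrArg Prod.fst k
  have k2 := congrArg (fun z : R4 => z.2.1) k
  exact Prod.ext k1 (Prod.ext k2 (sti_not h))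

lemma fderiv_uv {T : R4 → R4} (h : DifferentiableAt ℝ T y) (e : ∀ z, cu (T z) = cu z ∧ cv (T z) = cv z)
    (w : R4) : cu (fderiv ℝ T y w) = cu w ∧ cv (fderiv ℝ T y w) = cv w := by
  have k1 := h.hasFDerivAt.fst
  have k2 := h.hasFDerivAt.snd.fst
  rw [show (fun z => (T z).1) = fun z => z.1 from funext fun z => (e z).1] at k1
  rw [show (fun z => (T z).2.1) = fun z => z.2.1 from funext fun z => (e z).2] at k2
  exact ⟨DFunLike.congr_fun (k1.unique hasFDerivAt_fst) w,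
    DFunLike.congr_fun (k2.unique (hasFDerivAt_snd (𝕜 := ℝ) (p := y)).fst) w⟩

/-- the transition map of the stereographic charts -/
def tr (δ : ℝ) (σ σ' : Bool) (y : R4) : R4 := bs δ σ' (sb δ σ y)

theorem tr_spec (h : IsDN δ C) (hy : y ∈ Dm δ) (h' : In δ σ' (sb δ σ y)) :
    ContDiffAt ℝ ∞ (tr δ σ σ') y ∧ ∀ w,
      (cu (fderiv ℝ (tr δ σ σ') y w) = cu w ∧ cv (fderiv ℝ (tr δ σ σ') y w) = cv w) ∧
      ∀ z, bil (C σ) y w z = bil (C σ') (tr δ σ σ' y) (fderiv ℝ (tr δ σ σ') y w)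
        (fderiv ℝ (tr δ σ σ') y z) := by
  have hn := (isOpen_Dm δ).mem_nhds hy
  rcases Bool.eq_or_eq_not σ' σ with rfl | rfl
  · have e : tr δ σ' σ' =ᶠ[𝓝 y] id := mem_of_superset hn fun z hz => bs_sb hz
    rw [e.fderiv_eq, e.self_of_nhds, fderiv_id]
    exact ⟨contDiffAt_id.congr_of_eventuallyEq e, fun w => ⟨⟨rfl, rfl⟩, fun z => rfl⟩⟩
  · have r0 : rr y ≠ 0 := mem_src_not.1 h'.1
    have e : tr δ σ (!σ) =ᶠ[𝓝 y] flip := by
      filter_upwards [hn, rr_smooth.continuous.continuousAt.eventually_ne r0] with z k1 k2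
      exact bs_not k1.1 k2
    have r1 : 1 / 4 < rr y := by
      have k := h'.2
      rw [bs_not hy.1 r0, rr_flip, inv_lt_comm₀ ((rr_nonneg y).lt_of_ne' r0) four_pos] at k
      rwa [one_div]
    have k := h.compat σ y hy r1
    have k1 := fderiv_uv ((flip_smooth r0).differentiableAt (by simp)) fun z => ⟨rfl, rfl⟩
    have k2 : ∀ w z, bil (C σ) y w z =
        bil (C (!σ)) (flip y) (fderiv ℝ flip y w) (fderiv ℝ flip y z) := fun w z => by
      have := bil_polar (C σ) y w z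
      rw [k, k w, k z, map_add, ← bil_polar] at this
      linarith
    rw [e.fderiv_eq, e.self_of_nhds]
    exact ⟨(flip_smooth r0).congr_of_eventuallyEq e, fun w => ⟨k1 w, k2 w⟩⟩

/-! ### the spacetime -/

lemma bil_smooth (h : IsDN δ C) {s : Set R4} {f w z : R4 → R4} (hf : ContDiffOn ℝ ∞ f s)
    (hm : MapsTo f s (Dm δ)) (hw : ContDiffOn ℝ ∞ w s) (hz : ContDiffOn ℝ ∞ z s) :
    ContDiffOn ℝ ∞ (fun y => bil (C σ) (f y) (w y) (z y)) s := by
  have k : ∀ i, ContDiffOn ℝ ∞ (fun y => C σ i (f y)) s := fun i => (h.smooth σ i).comp hf hm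
  have q1 : ∀ {w : R4 → R4}, ContDiffOn ℝ ∞ w s → ContDiffOn ℝ ∞ (fun y => h1 (C σ) (f y) (w y)) s :=
    fun hw => (hw.snd.snd.fst.sub ((k 4).mul hw.snd.fst)).sub ((k 6).mul hw.fst)
  have q2 : ∀ {w : R4 → R4}, ContDiffOn ℝ ∞ w s → ContDiffOn ℝ ∞ (fun y => h2 (C σ) (f y) (w y)) s :=
    fun hw => (hw.snd.snd.snd.sub ((k 5).mul hw.snd.fst)).sub ((k 7).mul hw.fst)
  exact ((((k 0).mul ((q1 hw).mul (q1 hz))).add (((k 1).div_const 2).mul (((q1 hw).mul (q2 hz)).add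
    ((q2 hw).mul (q1 hz))))).add ((k 2).mul ((q2 hw).mul (q2 hz)))).sub (((k 3).div_const 2).mul
      ((hw.fst.mul hz.snd.fst).add (hw.snd.fst.mul hz.fst)))

lemma X0_smooth (h : IsDN δ C) : ContDiffOn ℝ ∞ (X0 (C σ)) (Dm δ) :=
  contDiffOn_const.prodMk (contDiffOn_const.prodMk
    (((h.smooth σ 4).add (h.smooth σ 6)).prodMk ((h.smooth σ 5).add (h.smooth σ 7))))

lemma signature (h : IsDN δ C) (hy : y ∈ Dm δ) : ∃ L : R4 → R4, IsLinearMap ℝ L ∧ L.Injective ∧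
    ∀ w z, bil (C σ) y w z = mink (L w) (L z) := by
  have p0 := h.g0 σ y hy
  have p1 := h.det σ y hy
  have p3 := h.om σ y hy
  have p2 : 0 < C σ 2 y - C σ 1 y ^ 2 / (4 * C σ 0 y) := by
    rw [sub_pos, div_lt_iff₀ (by positivity)]; linarith
  obtain ⟨A, A0, eA⟩ : ∃ A > 0, A * A = C σ 3 y := ⟨_, Real.sqrt_pos.2 p3, Real.mul_self_sqrt p3.le⟩
  obtain ⟨B, B0, eB⟩ : ∃ B > 0, B * B = C σ 0 y := ⟨_, Real.sqrt_pos.2 p0, Real.mul_self_sqrt p0.le⟩
  obtain ⟨D, D0, eD⟩ : ∃ D > 0, D * D = C σ 2 y - C σ 1 y ^ 2 / (4 * C σ 0 y) :=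
    ⟨_, Real.sqrt_pos.2 p2, Real.mul_self_sqrt p2.le⟩
  have hl : IsLinearMap ℝ fun w : R4 => ((A / 2 * (cu w + cv w), A / 2 * (cu w - cv w),
      B * (h1 (C σ) y w + C σ 1 y / (2 * C σ 0 y) * h2 (C σ) y w), D * h2 (C σ) y w) : R4) := by
    refine ⟨fun w z => ?_, fun k w => ?_⟩
    · simp only [h1, h2, cu, cv, c1, c2, Prod.fst_add, Prod.snd_add, Prod.mk_add_mk, Prod.mk.injEq]
      exact ⟨by ring, by ring, by ring, by ring⟩
    · simp only [h1, h2, cu, cv, c1, c2, Prod.smul_fst, Prod.smul_snd, smul_eq_mul, Prod.smul_mk,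
        Prod.mk.injEq]
      exact ⟨by ring, by ring, by ring, by ring⟩
  refine ⟨_, hl, fun w z e => ?_, fun w z => ?_⟩
  · simp only [Prod.mk.injEq] at e
    obtain ⟨q1, q2, q3, q4⟩ := e
    have q5 := mul_left_cancel₀ (half_pos A0).ne' q1
    have q6 := mul_left_cancel₀ (half_pos A0).ne' q2
    have q7 := mul_left_cancel₀ D0.ne' q4
    have q8 := mul_left_cancel₀ B0.ne' q3
    have q9 : cu w = cu z := by linarith
    have q10 : cv w = cv z := by linarith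
    rw [q7, add_left_inj] at q8
    simp only [h1, h2, q9, q10, sub_left_inj] at q7 q8
    exact Prod.ext q9 (Prod.ext q10 (Prod.ext q8 q7))
  · have e : C σ 0 y * (C σ 1 y / (2 * C σ 0 y)) = C σ 1 y / 2 := by field_simp
    have e' : C σ 0 y * (C σ 1 y / (2 * C σ 0 y)) ^ 2 = C σ 1 y ^ 2 / (4 * C σ 0 y) := by
      field_simp; ring
    simp only [bil, mink]
    generalize h1 (C σ) y w = s, h2 (C σ) y w = r, h1 (C σ) y z = s', h2 (C σ) y z = r',
      C σ 1 y / (2 * C σ 0 y) = E at e e' ⊢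
    simp only [cu, cv, c1, c2]
    linear_combination (1 / 2 * (w.1 * z.2.1 + w.2.1 * z.1)) * eA -
      (s + E * r) * (s' + E * r') * eB - r * r' * eD - (s * r' + r * s') * e - r * r' * e'

theorem isSpacetime (h : IsDN δ C) : IsSpacetime IsSmooth (sp δ C) where
  tensor := by
    intro (c : Ch δ) (c' : Ch δ) T hT y hy hon
    rw [tgt_eq] at hy
    have m := c.ξ.map_target hy
    obtain ⟨k1, k2⟩ := tr_spec h (c.sub m) (In.of_on hon)
    have m' : tr δ c.σ c'.σ (c.ξ.symm y) ∈ c'.ξ.source := hon.2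
    have e : T = c'.ξ ∘ tr δ c.σ c'.σ ∘ c.ξ.symm := hT
    have d := (c'.der m').comp y ((k1.differentiableAt (by simp)).hasFDerivAt.comp y (c.der' hy))
    have e1 : c'.ξ.symm (T y) = tr δ c.σ c'.σ (c.ξ.symm y) := e ▸ c'.ξ.left_inv m'
    have e2 : ∀ w, fderiv ℝ c'.ξ.symm (T y) (lineDeriv ℝ T y w) =
        fderiv ℝ (tr δ c.σ c'.σ) (c.ξ.symm y) (fderiv ℝ c.ξ.symm y w) := fun w => by
      rw [e, d.differentiableAt.lineDeriv_eq_fderiv, d.fderiv]
      exact c'.left m' _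
    have e3 : fderiv ℝ c'.ξ.symm (T y) ((sp δ C).X c' (T y)) =
        X0 (C c'.σ) (tr δ c.σ c'.σ (c.ξ.symm y)) := by
      rw [X_eq, e1, e]
      exact c'.left m' _
    have e4 : fderiv ℝ c.ξ.symm y ((sp δ C).X c y) = X0 (C c.σ) (c.ξ.symm y) := by
      have := c.left m (X0 (C c.σ) (c.ξ.symm y))
      rwa [c.ξ.right_inv hy] at this
    refine ⟨e ▸ (c'.smAt m').comp y (k1.comp y (c.smAt' hy)), fun w z => ?_, ?_⟩
    · rw [g_eq, g_eq, e1, e2, e2, ← (k2 _).2]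
    · rw [g_eq, e1, e2, e3, e4, bil_X0, (k2 _).1.1, (k2 _).1.2]
      have := h.om c'.σ _ (c'.sub m')
      simp only [X0, cu, cv]
      linarith
  signature := by
    intro (c : Ch δ) y hy
    rw [tgt_eq] at hy
    obtain ⟨L, k1, k2, k3⟩ := signature (σ := c.σ) h (c.sub (c.ξ.map_target hy))
    refine ⟨fun w => L (fderiv ℝ c.ξ.symm y w), ⟨fun w z => by rw [map_add, k1.map_add],
      fun k w => by rw [map_smul, k1.map_smul]⟩, k2.comp fun w z e => ?_, fun w z => k3 _ _⟩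
    rw [← c.right hy w, e, c.right hy]
  timelike := by
    intro (c : Ch δ) y hy
    rw [tgt_eq] at hy
    have m := c.ξ.map_target hy
    have e4 := c.left m (X0 (C c.σ) (c.ξ.symm y))
    rw [c.ξ.right_inv hy] at e4
    rw [g_eq, X_eq, e4, bil_X0]
    have := h.om c.σ _ (c.sub m)
    simp only [X0, cu, cv]
    linarith
  continuous := by
    intro (c : Ch δ)
    rw [tgt_eq]
    exact ((c.sm.continuousOn_fderiv_of_isOpen c.ξ.open_source (by simp)).comp c.ξ.continuousOn_symm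
      fun _ k => c.ξ.map_target k).clm_apply ((X0_smooth h).continuousOn.comp c.ξ.continuousOn_symm
      fun _ k => c.sub (c.ξ.map_target k))
  regular := by
    intro (c : Ch δ) w z
    rw [tgt_eq]
    have k := c.sm'.fderiv_of_isOpen (m := ∞) c.ξ.open_target (by simp)
    exact bil_smooth h c.sm' (fun _ k => c.sub (c.ξ.map_target k)) (k.clm_apply contDiffOn_const)
      (k.clm_apply contDiffOn_const)

theorem connected : ConnectedSpace (sp δ C).pt := by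
  have : ConnectedSpace S2 := isConnected_iff_connectedSpace.1 (isConnected_sphere (by
    rw [← Module.finrank_eq_rank, finrank_euclideanSpace_fin]; norm_num) _ zero_le_one)
  show ConnectedSpace (ℝ × ℝ × S2)
  infer_instance

/-! ### curves -/

lemma comp_curve {f g : ℝ → R4} {T : R4 → R4} (hI : UniqueDiffOn ℝ I) (ht : t ∈ I)
    (hf : ContDiffWithinAt ℝ 1 f I t) (hT : ContDiffAt ℝ ∞ T (f t))
    (e : g =ᶠ[𝓝[I] t] fun s => T (f s)) :
    ContDiffWithinAt ℝ 1 g I t ∧ derivWithin g I t = fderiv ℝ T (f t) (derivWithin f I t) := by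
  refine ⟨(ContDiffAt.comp_contDiffWithinAt t (hT.of_le (by simp)) hf).congr_of_eventuallyEq_of_mem
    e ht, ?_⟩
  rw [e.derivWithin_eq (e.self_of_nhdsWithin ht)]
  exact ((hT.differentiableAt (by simp)).hasFDerivAt.comp_hasDerivWithinAt t
    (hf.differentiableWithinAt one_ne_zero).hasDerivWithinAt).derivWithin (hI t ht)

lemma ev_src (hc : ContinuousWithinAt a I t) (h : (a t).2.2 ∈ src σ) :
    ∀ᶠ s in 𝓝[I] t, (a s).2.2 ∈ src σ := hc.eventually ((base 0 σ).open_source.mem_nhds h)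

lemma Fut.trans (h : IsDN δ C) (hI : UniqueDiffOn ℝ I) (ht : t ∈ I) (hc : ContinuousWithinAt a I t)
    (h1 : In δ σ (a t)) (h2 : In δ σ' (a t)) (H : Fut δ C m I a σ t) : Fut δ C m I a σ' t := by
  obtain ⟨k1, k2⟩ := tr_spec (σ := σ) (σ' := σ') h h1.mem (by rwa [sb_bs h1.1])
  obtain ⟨k3, k4⟩ := comp_curve (g := fun s => bs δ σ' (a s)) hI ht H.1 k1
    ((ev_src hc h1.1).mono fun s k => by simp only [tr, sb_bs k])
  have e : tr δ σ σ' (bs δ σ (a t)) = bs δ σ' (a t) := by rw [tr, sb_bs h1.1]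
  refine ⟨k3, ?_, ?_⟩
  · rw [k4, ← bil_self, ← e, ← (k2 _).2, bil_self]
    exact H.2.1
  · rw [k4, (k2 _).1.1, (k2 _).1.2]
    exact H.2.2

/-- a curve which is a future curve in one stereographic chart at each time -/
theorem curve_of (h : IsDN δ C) (hI : UniqueDiffOn ℝ I) (hc : ContinuousOn a I)
    (H : ∀ t ∈ I, ∃ σ, In δ σ (a t) ∧ Fut δ C m I a σ t) : IsFutureCurve (sp δ C) m I a := by
  refine ⟨hc, fun t ht (c : Ch δ) hon => ?_⟩
  obtain ⟨σ, k1, k2⟩ := H t ht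
  obtain ⟨k3, k4, k5⟩ := k2.trans h hI ht (hc t ht) k1 (In.of_on hon)
  obtain ⟨k6, k7⟩ := comp_curve (g := fun s => co (M := sp δ C) c (a s)) hI ht k3 (c.smAt hon.2)
    (.of_forall fun _ => rfl)
  refine ⟨k6, ?_⟩
  rintro _ _ rfl rfl
  have m' : bs δ c.σ (a t) ∈ c.ξ.source := hon.2
  have := h.om c.σ _ (c.sub m')
  rw [g_eq, g_eq, X_eq, k7, co_eq, c.ξ.left_inv m', c.left m', c.left m', bil_self, bil_X0]
  exact ⟨k4, neg_lt_zero.2 (by positivity)⟩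

theorem fut_of_curve (h : IsDN δ C) (H : IsFutureCurve (sp δ C) m I a) (ht : t ∈ I)
    (h1 : In δ σ (a t)) : Fut δ C m I a σ t := by
  obtain ⟨k1, k2⟩ := H.2 t ht (Ch.id δ σ) (on_id.2 h1)
  obtain ⟨k3, k4⟩ := k2 _ _ rfl rfl
  rw [g_id, bil_self] at k3
  rw [g_id, X_id, bil_X0, neg_lt_zero] at k4
  exact ⟨k1, k3, (mul_pos_iff_of_pos_left (half_pos (h.om σ _ h1.mem))).1 k4⟩

end Vale.Agent.P354P
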